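import Mathlib
import Crest.Agent.R053.Assembly

-- ▼ part R053/Basic
section

/-!
# R53 (S0074): shared definitions (blueprint by helper901, proof post #2541)
-/

set_option autoImplicit false

namespace Crest.Agent.R053

open Set

/-- An ideal of "small" sets containing all singletons. -/
structure SIdeal (α : Type) where
  small : Set α → Prop
  mono : ∀ {s t : Set α}, s ⊆ t → small t → small s
  union : ∀ {s t : Set α}, small s → small t → small (s ∪ t)
  singleton : ∀ x : α, small {x}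
  empty : small ∅

/-- almost inclusion modulo the ideal -/
def SIdeal.le {α : Type} (S : SIdeal α) (X Y : Set α) : Prop := S.small (X \ Y)

/-- The ideal on `α ⊕ β`: both coordinates small. -/
def SIdeal.sum {α : Type} (S : SIdeal α) : SIdeal (α ⊕ α) where
  small X := S.small (Sum.inl ⁻¹' X) ∧ S.small (Sum.inr ⁻¹' X)
  mono h ht := ⟨S.mono (preimage_mono h) ht.1, S.mono (preimage_mono h) ht.2⟩
  union hs ht := ⟨by rw [preimage_union]; exact S.union hs.1 ht.1,
    by rw [preimage_union]; exact S.union hs.2 ht.2⟩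
  singleton x := by
    rcases x with x | x
    · refine ⟨S.mono (t := {x}) ?_ (S.singleton x), S.mono (t := ∅) ?_ S.empty⟩
      · intro y hy; simpa using hy
      · intro y hy; simp at hy
    · refine ⟨S.mono (t := ∅) ?_ S.empty, S.mono (t := {x}) ?_ (S.singleton x)⟩
      · intro y hy; simp at hy
      · intro y hy; simpa using hy
  empty := ⟨by simpa using S.empty, by simpa using S.empty⟩

/-- "local bases" in the class of `N` modulo the ideal. -/
structure LocalBases {α : Type} (S : SIdeal α) (N : Set α) (LB : Set (Set α)) : Prop where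
  near : ∀ B ∈ LB, S.le B N ∧ S.le N B
  swap : ∀ B ∈ LB, ∀ a ∈ B, ∀ b, b ∉ B → insert b (B \ {a}) ∈ LB
  anti : ∀ B ∈ LB, ∀ B' ∈ LB, B ⊆ B' → B = B'
  mid : ∀ I X : Set α, I ⊆ X → S.le I N → S.le N X → (S.le N I → ∃ B ∈ LB, I ⊆ B) →
    (∃ B ∈ LB, I ⊆ B ∧ B ⊆ X) ∨ (S.le X N ∧ ∃ B ∈ LB, X ⊆ B)

/-- base family of an identically self-dual "uniform" matroid on the whole type -/
structure UBase {α : Type} (ℬ : Set (Set α)) : Prop where
  nonempty : ℬ.Nonempty
  swap : ∀ B ∈ ℬ, ∀ a ∈ B, ∀ b, b ∉ B → insert b (B \ {a}) ∈ ℬ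
  anti : ∀ B ∈ ℬ, ∀ B' ∈ ℬ, B ⊆ B' → B = B'
  mid : ∀ I X : Set α, I ⊆ X → (∃ B ∈ ℬ, I ⊆ B) →
    (∃ B ∈ ℬ, I ⊆ B ∧ B ⊆ X) ∨ (∃ B ∈ ℬ, X ⊆ B)
  compl : ∀ B ∈ ℬ, Bᶜ ∈ ℬ

/-- a "type +" near-base class with its two ordinals `q < r` -/
structure Nd (C : Type) where
  a : Set C
  b : Set C
  q : Ordinal.{0}
  r : Ordinal.{0}

/-- the invariants of the transfinite recursion; `a ∈ D` is "big". -/
structure Good {C : Type} (S : SIdeal C) (D : Ultrafilter C) (F : Set (Nd C)) : Prop where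
  ha : ∀ N ∈ F, N.a ∈ D
  hb : ∀ N ∈ F, N.b ∉ D
  hqr : ∀ N ∈ F, N.q < N.r
  anti : ∀ N ∈ F, ∀ N' ∈ F, S.le N.a N'.a → S.le N.b N'.b → N = N'
  rank : ∀ N ∈ F, ∀ N' ∈ F, S.le N.bᶜ N'.a → N'.r ≤ N.q

/-- `I=(i1,i2) ⊆ X=(x1,x2)` is taken care of by a type + member of `F`. -/
def Ok {C : Type} (S : SIdeal C) (F : Set (Nd C)) (i₁ i₂ x₁ x₂ : Set C) : Prop :=
  ∃ N ∈ F, (S.le x₁ N.a ∧ S.le x₂ N.b) ∨ (S.le N.a i₁ ∧ S.le N.b i₂) ∨
    ((S.le i₁ N.a ∧ S.le i₂ N.b) ∧ (S.le N.a x₁ ∧ S.le N.b x₂))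

/-- `H` splits the set `P` into two non-small pieces. -/
def Splits {C : Type} (S : SIdeal C) (H P : Set C) : Prop :=
  ¬ S.small (P ∩ H) ∧ ¬ S.small (P \ H)

/-- the final family -/
structure Final {C : Type} (S : SIdeal C) (D : Ultrafilter C) (F : Set (Nd C)) : Prop
    extends Good S D F where
  all : ∀ i₁ i₂ x₁ x₂ : Set C, i₁ ⊆ x₁ → i₂ ⊆ x₂ →
    Ok S F i₁ i₂ x₁ x₂ ∨ Ok S F x₁ᶜ x₂ᶜ i₁ᶜ i₂ᶜ

/-- The countable ground set `C`: the `n`-th block consists of all functions `2^n → 2`. -/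
abbrev CC : Type := Σ n : ℕ, ((Fin n → Bool) → Bool)

end Crest.Agent.R053
end

-- ▼ part R053/Unif
section

set_option autoImplicit false

/-! R53 (S0074), block M1: the matroid of a `UBase` family, and complementation of `LocalBases`. -/

namespace Crest.Agent.R053.Unif

open Set Matroid

/-- the matroid whose bases are the members of a `UBase` family -/
def toMatroid {α : Type} {ℬ : Set (Set α)} (h : UBase ℬ) : Matroid α where
  E := univ
  IsBase B := B ∈ ℬ
  Indep I := ∃ B, B ∈ ℬ ∧ I ⊆ B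
  indep_iff' _ := Iff.rfl
  exists_isBase := h.nonempty
  isBase_exchange := by
    intro X Y hX hY a ha
    have : ¬ Y ⊆ X := fun hYX => ha.2 (h.anti Y hY X hX hYX ▸ ha.1)
    obtain ⟨b, hb, hbX⟩ := Set.not_subset.1 this
    exact ⟨b, ⟨hb, hbX⟩, h.swap X hX a ha.1 b hbX⟩
  maximality := by
    rintro X - I ⟨B₀, hB₀, hI⟩ hIX
    rcases h.mid I X hIX ⟨B₀, hB₀, hI⟩ with ⟨B, hB, hIB, hBX⟩ | ⟨B, hB, hXB⟩
    · refine ⟨B, hIB, ⟨⟨B, hB, Subset.rfl⟩, hBX⟩, ?_⟩
      rintro K ⟨⟨B', hB', hK⟩, -⟩ hBK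
      have : B = B' := h.anti B hB B' hB' (hBK.trans hK)
      rw [this]; exact hK
    · exact ⟨X, hIX, ⟨⟨B, hB, hXB⟩, Subset.rfl⟩, fun K hK _ => hK.2⟩
  subset_ground _ _ := subset_univ _

/-- **Block M1.** A `UBase` family is the base family of a self-dual matroid on the whole type. -/
theorem exists_matroid {α : Type} {ℬ : Set (Set α)} (h : UBase ℬ) :
    ∃ U : Matroid α, U.E = univ ∧ U✶ = U ∧ ∀ B, U.IsBase B ↔ B ∈ ℬ :=
  ⟨toMatroid h, rfl, Assembly.dual_eq_of_base rfl fun B hB => h.compl B hB, fun _ => Iff.rfl⟩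


end Crest.Agent.R053.Unif
end

-- ▼ part R053/Glue
section

set_option autoImplicit false

/-! R53 (S0074): from the family of bases on `CC ⊕ CC` to the conclusion of S0074. -/

namespace Crest.Agent.R053.Glue

open Set Matroid

theorem glue {C : Type} [Countable C] [Infinite C] (D : Ultrafilter C) (ℬ : Set (Set (C ⊕ C)))
    (hU : UBase ℬ)
    (hch : ¬ ∃ y : ℕ → Set C, y 0 ∈ D ∧
      ∀ j, ∃ B ∈ ℬ, Sum.inl '' y j ∪ Sum.inr '' (y (j+1))ᶜ ⊆ B) :
    ∃ M₀ M₁ : Matroid ℕ, M₀.E = Set.univ ∧ M₁.E = Set.univ ∧ M₀.dual = M₀ ∧ M₁.dual = M₁ ∧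
      (∀ I₀ I₁ : Set ℕ, M₀.Indep I₀ → M₁.Indep I₁ → I₀ ∪ I₁ ≠ Set.univ) ∧
      ¬ ∃ P C S₀ S₁ I₀ I₁ : Set ℕ, P ∪ C = Set.univ ∧ Disjoint P C ∧
          S₀ ⊆ P ∧ S₁ ⊆ P ∧ Disjoint S₀ S₁ ∧
          (M₀.restrict P).closure S₀ = P ∧ (M₁.restrict P).closure S₁ = P ∧
          I₀ ⊆ C ∧ I₁ ⊆ C ∧ (M₀.contract Cᶜ).Indep I₀ ∧ (M₁.contract Cᶜ).Indep I₁ ∧
          I₀ ∪ I₁ = C := by
  obtain ⟨U, hE, hdual, hB⟩ := Unif.exists_matroid hU
  refine Assembly.assembly U hE hdual (fun x => x ∈ D) (fun x => Ultrafilter.mem_or_compl_mem D x) ?_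
  rintro ⟨y, h0, hy⟩
  refine hch ⟨y, h0, fun j => ?_⟩
  obtain ⟨B, hBB, hsub⟩ := (Matroid.indep_iff).1 (hy j)
  exact ⟨B, (hB B).1 hBB, hsub⟩

instance : Infinite CC := by
  refine Infinite.of_injective (fun n : ℕ => (⟨n, fun _ => true⟩ : CC)) ?_
  intro a b h
  exact congrArg Sigma.fst h

end Crest.Agent.R053.Glue
end

-- ▼ part R053/Fam
section

/-!
# R53 (S0074): block [M2].  From the final family and the local bases to a `UBase`, and no chain.
-/

set_option autoImplicit false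

namespace Crest.Agent.R053.Fam

open Set

variable {C : Type}

/-- the subset of `C ⊕ C` given by the two coordinates of a node -/
def hat (N : Nd C) : Set (C ⊕ C) := Sum.inl '' N.a ∪ Sum.inr '' N.b

lemma inl_hat (N : Nd C) : Sum.inl ⁻¹' hat N = N.a := by
  ext x; simp [hat]

lemma inr_hat (N : Nd C) : Sum.inr ⁻¹' hat N = N.b := by
  ext x; simp [hat]

/-- the union of all local bases and of their complements -/
def bases (F : Set (Nd C)) (LB : Nd C → Set (Set (C ⊕ C))) : Set (Set (C ⊕ C)) :=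
  {B | ∃ N ∈ F, B ∈ LB N ∨ Bᶜ ∈ LB N}

lemma le_trans' {α : Type} (S : SIdeal α) {X Y Z : Set α} (h₁ : S.le X Y) (h₂ : S.le Y Z) :
    S.le X Z := by
  refine S.mono (t := (X \ Y) ∪ (Y \ Z)) ?_ (S.union h₁ h₂)
  intro x hx
  by_cases h : x ∈ Y
  · exact Or.inr ⟨h, hx.2⟩
  · exact Or.inl ⟨hx.1, h⟩

lemma le_of_subset {α : Type} (S : SIdeal α) {X Y : Set α} (h : X ⊆ Y) : S.le X Y := by
  unfold SIdeal.le
  rw [sdiff_eq_empty.mpr h]; exact S.empty

lemma le_compl {α : Type} (S : SIdeal α) {X Y : Set α} (h : S.le X Y) : S.le Yᶜ Xᶜ := by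
  unfold SIdeal.le at *
  refine S.mono ?_ h
  intro x hx
  exact ⟨not_not.mp hx.2, hx.1⟩

lemma le_compl_iff {α : Type} (S : SIdeal α) {X Y : Set α} : S.le Yᶜ Xᶜ ↔ S.le X Y :=
  ⟨fun h => by simpa using le_compl S h, le_compl S⟩

/-- The dual of a local base family. -/
theorem local_dual {α : Type} {S : SIdeal α} {N : Set α} {LB : Set (Set α)}
    (h : LocalBases S N LB) (hN : ¬ S.small N) :
    LocalBases S Nᶜ {B | Bᶜ ∈ LB} where
  near := by
    intro B hB
    obtain ⟨h1, h2⟩ := h.near Bᶜ hB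
    exact ⟨by simpa using le_compl S h2, by simpa using le_compl S h1⟩
  swap := by
    intro B hB a ha b hb
    have hab : a ≠ b := fun e => hb (e ▸ ha)
    have key := h.swap Bᶜ hB b hb a (fun h' => h' ha)
    have e : (insert b (B \ {a}))ᶜ = insert a (Bᶜ \ {b}) := by
      ext x
      simp only [mem_compl_iff, mem_insert_iff, mem_sdiff, mem_singleton_iff, not_or, not_and,
        not_not]
      constructor
      · rintro ⟨h1, h2⟩
        by_cases hx : x ∈ B
        · exact Or.inl (h2 hx)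
        · exact Or.inr ⟨hx, h1⟩
      · rintro (rfl | ⟨h1, h2⟩)
        · exact ⟨hab, fun _ => rfl⟩
        · exact ⟨h2, fun h' => absurd h' h1⟩
    change (insert b (B \ {a}))ᶜ ∈ LB
    rw [e]; exact key
  anti := by
    intro B hB B' hB' hBB
    have := h.anti B'ᶜ hB' Bᶜ hB (compl_subset_compl.mpr hBB)
    exact (compl_injective this).symm
  mid := by
    intro I X hIX hI hX hyp
    have hI' : S.le Xᶜ N := by simpa using le_compl S hX
    have hX' : S.le N Iᶜ := by simpa using le_compl S hI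
    have main : (S.le N Xᶜ → ∃ B ∈ LB, Xᶜ ⊆ B) →
        (∃ B ∈ {B | Bᶜ ∈ LB}, I ⊆ B ∧ B ⊆ X) ∨ (S.le X Nᶜ ∧ ∃ B ∈ {B | Bᶜ ∈ LB}, X ⊆ B) := by
      intro hyp'
      rcases h.mid Xᶜ Iᶜ (compl_subset_compl.mpr hIX) hI' hX' hyp' with
        ⟨B, hB, h1, h2⟩ | ⟨h1, B, hB, h2⟩
      · refine Or.inl ⟨Bᶜ, by simpa using hB, ?_, ?_⟩
        · exact subset_compl_comm.mp h2
        · exact compl_subset_comm.mp h1
      · obtain ⟨B1, hB1, hIB1⟩ := hyp (by simpa using le_compl S h1)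
        have h3 : B1ᶜ ⊆ B := (compl_subset_compl.mpr hIB1).trans h2
        have h4 : B1ᶜ = B := h.anti _ hB1 _ hB h3
        refine Or.inl ⟨B1, hB1, hIB1, ?_⟩
        have : B1 ⊆ I := by
          rw [← compl_subset_compl, h4]; exact h2
        exact this.trans hIX
    by_cases hXN : S.le X Nᶜ
    · have hXN' : S.le N Xᶜ := by simpa using le_compl S hXN
      rcases h.mid ∅ Xᶜ (empty_subset _) (le_of_subset S (empty_subset _)) hXN'
        (fun h' => absurd (by simpa [SIdeal.le] using h') hN) with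
        ⟨B, hB, -, h2⟩ | ⟨-, B, hB, h2⟩
      · exact Or.inr ⟨hXN, Bᶜ, by simpa using hB, subset_compl_comm.mp h2⟩
      · exact main (fun _ => ⟨B, hB, h2⟩)
    · exact main (fun h' => absurd (by simpa using le_compl S h') hXN)

section

variable {S : SIdeal C} {D : Ultrafilter C} {F : Set (Nd C)} {LB : Nd C → Set (Set (C ⊕ C))}

lemma sum_le_iff {X Y : Set (C ⊕ C)} :
    S.sum.le X Y ↔ S.le (Sum.inl ⁻¹' X) (Sum.inl ⁻¹' Y) ∧ S.le (Sum.inr ⁻¹' X) (Sum.inr ⁻¹' Y) :=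
  Iff.rfl

lemma hat_le_iff {X : Set (C ⊕ C)} {N : Nd C} :
    S.sum.le (hat N) X ↔ S.le N.a (Sum.inl ⁻¹' X) ∧ S.le N.b (Sum.inr ⁻¹' X) := by
  rw [sum_le_iff, inl_hat, inr_hat]

lemma le_hat_iff {X : Set (C ⊕ C)} {N : Nd C} :
    S.sum.le X (hat N) ↔ S.le (Sum.inl ⁻¹' X) N.a ∧ S.le (Sum.inr ⁻¹' X) N.b := by
  rw [sum_le_iff, inl_hat, inr_hat]

lemma le_hatc_iff {X : Set (C ⊕ C)} {N : Nd C} :
    S.sum.le X (hat N)ᶜ ↔ S.le (Sum.inl ⁻¹' X) N.aᶜ ∧ S.le (Sum.inr ⁻¹' X) N.bᶜ := by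
  rw [sum_le_iff, preimage_compl, preimage_compl, inl_hat, inr_hat]

lemma not_le_of_big (hSD : ∀ A, S.small A → A ∉ D) {X Y : Set C} (hX : X ∈ D) (hY : Y ∉ D) :
    ¬ S.le X Y := by
  intro h
  refine hSD _ h ?_
  have : Yᶜ ∈ D := Ultrafilter.compl_mem_iff_notMem.mpr hY
  exact Filter.inter_mem hX this

/-- signed classes -/
def Cls (F : Set (Nd C)) (LB : Nd C → Set (Set (C ⊕ C))) (P : Set (C ⊕ C))
    (L : Set (Set (C ⊕ C))) : Prop :=
  ∃ N ∈ F, (P = hat N ∧ L = LB N) ∨ (P = (hat N)ᶜ ∧ L = {B | Bᶜ ∈ LB N})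

lemma mem_bases_iff {B : Set (C ⊕ C)} : B ∈ bases F LB ↔ ∃ P L, Cls F LB P L ∧ B ∈ L := by
  constructor
  · rintro ⟨N, hN, h | h⟩
    · exact ⟨_, _, ⟨N, hN, Or.inl ⟨rfl, rfl⟩⟩, h⟩
    · exact ⟨_, _, ⟨N, hN, Or.inr ⟨rfl, rfl⟩⟩, h⟩
  · rintro ⟨P, L, ⟨N, hN, ⟨rfl, rfl⟩ | ⟨rfl, rfl⟩⟩, h⟩
    · exact ⟨N, hN, Or.inl h⟩
    · exact ⟨N, hN, Or.inr h⟩

lemma hat_not_small (hSD : ∀ A, S.small A → A ∉ D) (hF : Good S D F) {N : Nd C} (hN : N ∈ F) :
    ¬ S.sum.small (hat N) := by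
  intro h
  have h1 : S.small (Sum.inl ⁻¹' hat N) := h.1
  rw [inl_hat] at h1
  exact hSD _ h1 (hF.ha N hN)

lemma Cls.local (hSD : ∀ A, S.small A → A ∉ D) (hF : Good S D F)
    (hLB : ∀ N ∈ F, LocalBases S.sum (hat N) (LB N)) {P : Set (C ⊕ C)}
    {L : Set (Set (C ⊕ C))} (h : Cls F LB P L) : LocalBases S.sum P L := by
  obtain ⟨N, hN, ⟨rfl, rfl⟩ | ⟨rfl, rfl⟩⟩ := h
  · exact hLB N hN
  · exact local_dual (hLB N hN) (hat_not_small hSD hF hN)

lemma Cls.eq_of_le (hSD : ∀ A, S.small A → A ∉ D) (hF : Good S D F)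
    {P P' : Set (C ⊕ C)} {L L' : Set (Set (C ⊕ C))} (h : Cls F LB P L) (h' : Cls F LB P' L')
    (hle : S.sum.le P P') : P = P' ∧ L = L' := by
  obtain ⟨N, hN, ⟨rfl, rfl⟩ | ⟨rfl, rfl⟩⟩ := h <;>
    obtain ⟨N', hN', ⟨rfl, rfl⟩ | ⟨rfl, rfl⟩⟩ := h'
  · rw [hat_le_iff, inl_hat, inr_hat] at hle
    have := hF.anti N hN N' hN' hle.1 hle.2
    subst this; exact ⟨rfl, rfl⟩
  · exfalso
    rw [hat_le_iff, preimage_compl, inl_hat] at hle
    refine not_le_of_big hSD (hF.ha N hN) ?_ hle.1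
    exact fun hc => (Ultrafilter.compl_mem_iff_notMem.mp hc) (hF.ha N' hN')
  · exfalso
    rw [le_hat_iff, preimage_compl, preimage_compl, inr_hat] at hle
    exact not_le_of_big hSD (Ultrafilter.compl_mem_iff_notMem.mpr (hF.hb N hN))
      (hF.hb N' hN') hle.2
  · have hle' : S.sum.le (hat N') (hat N) := (le_compl_iff S.sum).mp hle
    rw [hat_le_iff, inl_hat, inr_hat] at hle'
    have := hF.anti N' hN' N hN hle'.1 hle'.2
    subst this; exact ⟨rfl, rfl⟩

lemma Cls.mid (hSD : ∀ A, S.small A → A ∉ D) (hF : Good S D F)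
    (hLB : ∀ N ∈ F, LocalBases S.sum (hat N) (LB N)) {P : Set (C ⊕ C)}
    {L : Set (Set (C ⊕ C))} (h : Cls F LB P L) {I X : Set (C ⊕ C)} (hIX : I ⊆ X)
    (hI : ∃ B ∈ bases F LB, I ⊆ B)
    (hok : S.sum.le X P ∨ S.sum.le P I ∨ (S.sum.le I P ∧ S.sum.le P X)) :
    (∃ B ∈ L, I ⊆ B ∧ B ⊆ X) ∨ (∃ B ∈ L, X ⊆ B) := by
  have hloc := h.local hSD hF hLB
  obtain ⟨B0, hB0, hIB0⟩ := hI
  obtain ⟨P0, L0, h0, hB0L⟩ := mem_bases_iff.mp hB0
  have hloc0 := h0.local hSD hF hLB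
  have hIP0 : S.sum.le I P0 := le_trans' _ (le_of_subset _ hIB0) (hloc0.near B0 hB0L).1
  have case3 : S.sum.le I P → S.sum.le P X →
      (∃ B ∈ L, I ⊆ B ∧ B ⊆ X) ∨ (∃ B ∈ L, X ⊆ B) := by
    intro h1 h2
    rcases hloc.mid I X hIX h1 h2 (fun h3 => by
      obtain ⟨-, rfl⟩ := h.eq_of_le hSD hF h0 (le_trans' _ h3 hIP0)
      exact ⟨B0, hB0L, hIB0⟩) with h4 | ⟨-, h4⟩
    · exact Or.inl h4
    · exact Or.inr h4
  rcases hok with h1 | h1 | ⟨h1, h2⟩
  · by_cases h2 : S.sum.le P X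
    · exact case3 (le_trans' _ (le_of_subset _ hIX) h1) h2
    · rcases hloc.mid X univ (subset_univ _) h1 (le_of_subset _ (subset_univ _))
        (fun h3 => absurd h3 h2) with ⟨B, hB, h4, -⟩ | ⟨-, B, hB, h4⟩
      · exact Or.inr ⟨B, hB, h4⟩
      · exact Or.inr ⟨B, hB, (subset_univ _).trans h4⟩
  · obtain ⟨rfl, rfl⟩ := h.eq_of_le hSD hF h0 (le_trans' _ h1 hIP0)
    exact case3 hIP0 (le_trans' _ h1 (le_of_subset _ hIX))
  · exact case3 h1 h2

/-- **[M2], part 1**: the union of the local bases and of their complements is a `UBase`. -/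
theorem ubase (hSD : ∀ A, S.small A → A ∉ D) (hF : Final S D F)
    (hLB : ∀ N ∈ F, LocalBases S.sum (hat N) (LB N)) : UBase (bases F LB) := by
  have hG : Good S D F := hF.toGood
  have hmid : ∀ I X : Set (C ⊕ C), I ⊆ X → (∃ B ∈ bases F LB, I ⊆ B) →
      (∃ B ∈ bases F LB, I ⊆ B ∧ B ⊆ X) ∨ (∃ B ∈ bases F LB, X ⊆ B) := by
    intro I X hIX hI
    have fin : ∀ P L, Cls F LB P L →
        (S.sum.le X P ∨ S.sum.le P I ∨ (S.sum.le I P ∧ S.sum.le P X)) →
        (∃ B ∈ bases F LB, I ⊆ B ∧ B ⊆ X) ∨ (∃ B ∈ bases F LB, X ⊆ B) := by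
      intro P L hPL hok
      rcases hPL.mid hSD hG hLB hIX hI hok with ⟨B, hB, h1⟩ | ⟨B, hB, h1⟩
      · exact Or.inl ⟨B, mem_bases_iff.mpr ⟨P, L, hPL, hB⟩, h1⟩
      · exact Or.inr ⟨B, mem_bases_iff.mpr ⟨P, L, hPL, hB⟩, h1⟩
    rcases hF.all (Sum.inl ⁻¹' I) (Sum.inr ⁻¹' I) (Sum.inl ⁻¹' X) (Sum.inr ⁻¹' X)
      (preimage_mono hIX) (preimage_mono hIX) with ⟨N, hN, h⟩ | ⟨N, hN, h⟩
    · refine fin (hat N) (LB N) ⟨N, hN, Or.inl ⟨rfl, rfl⟩⟩ ?_
      rw [le_hat_iff, hat_le_iff, le_hat_iff, hat_le_iff]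
      exact h
    · refine fin (hat N)ᶜ {B | Bᶜ ∈ LB N} ⟨N, hN, Or.inr ⟨rfl, rfl⟩⟩ ?_
      have e1 : S.sum.le X (hat N)ᶜ ↔ S.le N.a (Sum.inl ⁻¹' X)ᶜ ∧ S.le N.b (Sum.inr ⁻¹' X)ᶜ := by
        rw [le_hatc_iff, ← le_compl_iff S (X := Sum.inl ⁻¹' X), ← le_compl_iff S (X := Sum.inr ⁻¹' X),
          compl_compl, compl_compl]
      have e2 : S.sum.le (hat N)ᶜ I ↔ S.le (Sum.inl ⁻¹' I)ᶜ N.a ∧ S.le (Sum.inr ⁻¹' I)ᶜ N.b := by
        rw [← le_compl_iff S.sum, compl_compl, le_hat_iff, preimage_compl, preimage_compl]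
      have e3 : S.sum.le I (hat N)ᶜ ↔ S.le N.a (Sum.inl ⁻¹' I)ᶜ ∧ S.le N.b (Sum.inr ⁻¹' I)ᶜ := by
        rw [le_hatc_iff, ← le_compl_iff S (X := Sum.inl ⁻¹' I), ← le_compl_iff S (X := Sum.inr ⁻¹' I),
          compl_compl, compl_compl]
      have e4 : S.sum.le (hat N)ᶜ X ↔ S.le (Sum.inl ⁻¹' X)ᶜ N.a ∧ S.le (Sum.inr ⁻¹' X)ᶜ N.b := by
        rw [← le_compl_iff S.sum, compl_compl, le_hat_iff, preimage_compl, preimage_compl]
      rw [e1, e2, e3, e4]
      rcases h with h | h | ⟨h, h'⟩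
      · exact Or.inr (Or.inl h)
      · exact Or.inl h
      · exact Or.inr (Or.inr ⟨h', h⟩)
  refine ⟨?_, ?_, ?_, hmid, ?_⟩
  · -- nonempty
    have : ∃ N, N ∈ F := by
      rcases hF.all ∅ ∅ ∅ ∅ (subset_refl _) (subset_refl _) with ⟨N, hN, -⟩ | ⟨N, hN, -⟩ <;>
        exact ⟨N, hN⟩
    obtain ⟨N, hN⟩ := this
    rcases (hLB N hN).mid ∅ univ (empty_subset _) (le_of_subset _ (empty_subset _))
      (le_of_subset _ (subset_univ _)) (fun h' => absurd (by simpa [SIdeal.le] using h')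
        (hat_not_small hSD hG hN)) with ⟨B, hB, -⟩ | ⟨-, B, hB, -⟩
    · exact ⟨B, N, hN, Or.inl hB⟩
    · exact ⟨B, N, hN, Or.inl hB⟩
  · -- swap
    intro B hB a ha b hb
    obtain ⟨P, L, hPL, hBL⟩ := mem_bases_iff.mp hB
    exact mem_bases_iff.mpr ⟨P, L, hPL, (hPL.local hSD hG hLB).swap B hBL a ha b hb⟩
  · -- anti
    intro B hB B' hB' hBB
    obtain ⟨P, L, hPL, hBL⟩ := mem_bases_iff.mp hB
    obtain ⟨P', L', hPL', hBL'⟩ := mem_bases_iff.mp hB'
    have l := hPL.local hSD hG hLB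
    have l' := hPL'.local hSD hG hLB
    obtain ⟨-, rfl⟩ := hPL.eq_of_le hSD hG hPL'
      (le_trans' _ (l.near B hBL).2 (le_trans' _ (le_of_subset _ hBB) (l'.near B' hBL').1))
    exact l.anti B hBL B' hBL' hBB
  · -- compl
    rintro B ⟨N, hN, h | h⟩
    · exact ⟨N, hN, Or.inr (by simpa using h)⟩
    · exact ⟨N, hN, Or.inl h⟩

/-- **[M2], part 2**: there is no infinite chain starting with a big set. -/
theorem no_chain (hSD : ∀ A, S.small A → A ∉ D) (hF : Good S D F)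
    (hLB : ∀ N ∈ F, LocalBases S.sum (hat N) (LB N)) :
    ¬ ∃ y : ℕ → Set C, y 0 ∈ D ∧
      ∀ j, ∃ B ∈ bases F LB, Sum.inl '' y j ∪ Sum.inr '' (y (j + 1))ᶜ ⊆ B := by
  rintro ⟨y, hy0, hy⟩
  have step : ∀ j, y j ∈ D → ∃ N ∈ F, S.le (y j) N.a ∧ S.le (y (j + 1))ᶜ N.b := by
    intro j hj
    obtain ⟨B, hB, hsub⟩ := hy j
    obtain ⟨P, L, hPL, hBL⟩ := mem_bases_iff.mp hB
    have l := hPL.local hSD hF hLB
    have hle : S.sum.le (Sum.inl '' y j ∪ Sum.inr '' (y (j + 1))ᶜ) P :=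
      le_trans' _ (le_of_subset _ hsub) (l.near B hBL).1
    have e1 : Sum.inl ⁻¹' (Sum.inl '' y j ∪ Sum.inr '' (y (j + 1))ᶜ : Set (C ⊕ C)) = y j := by
      ext x; simp
    have e2 : Sum.inr ⁻¹' (Sum.inl '' y j ∪ Sum.inr '' (y (j + 1))ᶜ : Set (C ⊕ C))
        = (y (j + 1))ᶜ := by
      ext x; simp
    obtain ⟨N, hN, ⟨rfl, rfl⟩ | ⟨rfl, rfl⟩⟩ := hPL
    · rw [le_hat_iff, e1, e2] at hle
      exact ⟨N, hN, hle⟩
    · exfalso
      rw [le_hatc_iff, e1] at hle
      refine not_le_of_big hSD hj ?_ hle.1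
      exact fun hc => (Ultrafilter.compl_mem_iff_notMem.mp hc) (hF.ha N hN)
  have big : ∀ j, y j ∈ D := by
    intro j
    induction j with
    | zero => exact hy0
    | succ j ih =>
      obtain ⟨N, hN, -, h2⟩ := step j ih
      by_contra hc
      exact not_le_of_big hSD (Ultrafilter.compl_mem_iff_notMem.mpr hc) (hF.hb N hN) h2
  choose N hN h1 h2 using fun j => step j (big j)
  have dec : ∀ j, (N (j + 1)).r < (N j).r := by
    intro j
    have h3 : S.le (N j).bᶜ (N (j + 1)).a := by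
      refine le_trans' S ?_ (h1 (j + 1))
      simpa using le_compl S (h2 j)
    exact lt_of_le_of_lt (hF.rank _ (hN j) _ (hN (j + 1)) h3) (hF.hqr _ (hN j))
  obtain ⟨m, ⟨j, rfl⟩, hm⟩ := (wellFounded_lt (α := Ordinal.{0})).has_min
    (range fun j => (N j).r) ⟨_, ⟨0, rfl⟩⟩
  exact hm _ ⟨j + 1, rfl⟩ (dec j)

end

end Crest.Agent.R053.Fam
end

-- ▼ part R053/Ext
section

/-!
# R53 [G] extension lemma of the transfinite recursion
-/

set_option autoImplicit false

namespace Crest.Agent.R053.Ext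

open Set Crest.Agent.R053

variable {C : Type}

theorem le_of_subset (S : SIdeal C) {X Y : Set C} (h : X ⊆ Y) : S.le X Y := by
  unfold SIdeal.le
  rw [Set.sdiff_eq_empty.2 h]; exact S.empty

theorem le_trans (S : SIdeal C) {X Y Z : Set C} (h : S.le X Y) (h' : S.le Y Z) : S.le X Z := by
  refine S.mono ?_ (S.union h h')
  intro x hx
  by_cases hy : x ∈ Y
  · exact Or.inr ⟨hy, hx.2⟩
  · exact Or.inl ⟨hx.1, hy⟩

theorem le_compl (S : SIdeal C) {X Y : Set C} (h : S.le X Y) : S.le Yᶜ Xᶜ := by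
  refine S.mono ?_ h
  intro x hx
  exact ⟨by simpa using hx.2, hx.1⟩

theorem mem_of_le (S : SIdeal C) (D : Ultrafilter C) (hD : ∀ A, S.small A → A ∉ D)
    {X Y : Set C} (h : S.le X Y) (hX : X ∈ D) : Y ∈ D := by
  by_contra hY
  have h1 : Yᶜ ∈ D := Ultrafilter.compl_mem_iff_notMem.2 hY
  have h2 : X ∩ Yᶜ ∈ D := Filter.inter_mem hX h1
  exact hD _ h (by simpa [Set.sdiff_eq] using h2)

/-- "H splits P if P is not small" -/
def Sp (S : SIdeal C) (H P : Set C) : Prop := ¬ S.small P → Splits S H P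

theorem alpha (S : SIdeal C) {i d H Y : Set C} (hs : Sp S H (d \ Y))
    (h : S.le (i ∪ (H ∩ d)) Y) : S.le (i ∪ d) Y := by
  have h1 : S.small ((d \ Y) ∩ H) := by
    refine S.mono ?_ h
    intro x hx
    exact ⟨Or.inr ⟨hx.2, hx.1.1⟩, hx.1.2⟩
  have h2 : S.small (d \ Y) := by
    by_contra hc
    exact (hs hc).1 h1
  refine S.mono ?_ (S.union h h2)
  intro x hx
  rcases hx.1 with h3 | h3
  · exact Or.inl ⟨Or.inl h3, hx.2⟩
  · exact Or.inr ⟨h3, hx.2⟩

theorem beta (S : SIdeal C) {i d H Z : Set C} (hdi : Disjoint i d) (hs : Sp S H (Z ∩ d))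
    (h : S.le Z (i ∪ (H ∩ d))) : S.le Z i := by
  have h1 : S.small ((Z ∩ d) \ H) := by
    refine S.mono ?_ h
    intro x hx
    refine ⟨hx.1.1, ?_⟩
    rintro (h3 | h3)
    · exact Set.disjoint_left.1 hdi h3 hx.1.2
    · exact hx.2 h3.1
  have h2 : S.small (Z ∩ d) := by
    by_contra hc
    exact (hs hc).2 h1
  refine S.mono ?_ (S.union h h2)
  intro x hx
  by_cases hd : x ∈ d
  · exact Or.inr ⟨hx.1, hd⟩
  · refine Or.inl ⟨hx.1, ?_⟩
    rintro (h3 | h3)
    · exact hx.2 h3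
    · exact hd h3.2

theorem gamma (S : SIdeal C) {i d H Y : Set C} (hdi : Disjoint i d) (hs : Sp S H (d \ Y))
    (h : S.le (i ∪ (H ∩ d))ᶜ Y) : S.le iᶜ Y := by
  have h1 : S.small ((d \ Y) \ H) := by
    refine S.mono ?_ h
    intro x hx
    refine ⟨?_, hx.1.2⟩
    rintro (h3 | h3)
    · exact Set.disjoint_left.1 hdi h3 hx.1.1
    · exact hx.2 h3.1
  have h2 : S.small (d \ Y) := by
    by_contra hc
    exact (hs hc).2 h1
  refine S.mono ?_ (S.union h h2)
  intro x hx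
  by_cases hd : x ∈ d
  · exact Or.inr ⟨hd, hx.2⟩
  · refine Or.inl ⟨?_, hx.2⟩
    rintro (h3 | h3)
    · exact hx.1 h3
    · exact hd h3.2

/-- The splitting hypothesis available at a stage of the recursion. -/
def SplitHyp (S : SIdeal C) (F : Set (Nd C)) : Prop :=
  ∀ (f : Nd C → List (Set C)) (g : List (Set C)),
    ∃ H : Set C, (∀ N ∈ F, ∀ P ∈ f N, Sp S H P) ∧ ∀ P ∈ g, Sp S H P

theorem Sp.compl (S : SIdeal C) {H P : Set C} (h : Sp S H P) : Sp S Hᶜ P := by
  intro hP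
  obtain ⟨h1, h2⟩ := h hP
  refine ⟨by simpa [Set.sdiff_eq] using h2, by simpa [Set.sdiff_eq] using h1⟩

theorem SplitHyp.mem {S : SIdeal C} {F : Set (Nd C)} (h : SplitHyp S F) (D : Ultrafilter C)
    (f : Nd C → List (Set C)) (g : List (Set C)) :
    ∃ H : Set C, H ∈ D ∧ (∀ N ∈ F, ∀ P ∈ f N, Sp S H P) ∧ ∀ P ∈ g, Sp S H P := by
  obtain ⟨H, h1, h2⟩ := h f g
  by_cases hH : H ∈ D
  · exact ⟨H, hH, h1, h2⟩
  · exact ⟨Hᶜ, Ultrafilter.compl_mem_iff_notMem.2 hH, fun N hN P hP => (h1 N hN P hP).compl,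
      fun P hP => (h2 P hP).compl⟩

theorem SplitHyp.notMem {S : SIdeal C} {F : Set (Nd C)} (h : SplitHyp S F) (D : Ultrafilter C)
    (f : Nd C → List (Set C)) (g : List (Set C)) :
    ∃ H : Set C, H ∉ D ∧ (∀ N ∈ F, ∀ P ∈ f N, Sp S H P) ∧ ∀ P ∈ g, Sp S H P := by
  obtain ⟨H, h0, h1, h2⟩ := h.mem D f g
  exact ⟨Hᶜ, fun hc => (Ultrafilter.compl_mem_iff_notMem.1 hc) h0,
    fun N hN P hP => (h1 N hN P hP).compl, fun P hP => (h2 P hP).compl⟩

/-- The main step: insert a new type + class between `I` and `X`. -/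
theorem between (S : SIdeal C) (D : Ultrafilter C)
    {F : Set (Nd C)} (hF : Good S D F) (hsp : SplitHyp S F)
    {i₁ i₂ x₁ x₂ : Set C} (h₁ : i₁ ⊆ x₁) (h₂ : i₂ ⊆ x₂) (hi₂ : i₂ ∉ D) (hx₁ : x₁ ∈ D)
    (hno : ¬ Ok S F i₁ i₂ x₁ x₂)
    {q r : Ordinal.{0}} (hqr : q < r)
    (hq : ∀ N ∈ F, S.le i₂ᶜ N.a → N.r ≤ q) (hr : ∀ N ∈ F, S.le N.bᶜ i₁ → r ≤ N.q)
    (hself : ¬ S.le i₂ᶜ i₁) :
    ∃ N : Nd C, Good S D (insert N F) ∧
      (i₁ ⊆ N.a ∧ i₂ ⊆ N.b ∧ N.a ⊆ x₁ ∧ N.b ⊆ x₂) := by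
  obtain ⟨H₂, hH₂D, hH₂, hH₂'⟩ := hsp.notMem D
    (fun N => [(x₂ \ i₂) \ N.b, N.b ∩ (x₂ \ i₂), (x₂ \ i₂) \ N.a]) [(x₂ \ i₂) \ i₁]
  set b : Set C := i₂ ∪ (H₂ ∩ (x₂ \ i₂)) with hb
  obtain ⟨H₁, hH₁D, hH₁, hH₁'⟩ := hsp.mem D
    (fun N => [(x₁ \ i₁) \ N.a, N.a ∩ (x₁ \ i₁), N.bᶜ ∩ (x₁ \ i₁)]) [bᶜ ∩ (x₁ \ i₁)]
  set a : Set C := i₁ ∪ (H₁ ∩ (x₁ \ i₁)) with ha
  have hdis₁ : Disjoint i₁ (x₁ \ i₁) := disjoint_sdiff_right
  have hdis₂ : Disjoint i₂ (x₂ \ i₂) := disjoint_sdiff_right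
  have ex₁ : i₁ ∪ (x₁ \ i₁) = x₁ := union_sdiff_cancel h₁
  have ex₂ : i₂ ∪ (x₂ \ i₂) = x₂ := union_sdiff_cancel h₂
  have haD : a ∈ D := by
    by_cases hi : i₁ ∈ D
    · exact Filter.mem_of_superset hi subset_union_left
    · have h3 : x₁ \ i₁ ∈ D := by
        have : i₁ᶜ ∈ D := Ultrafilter.compl_mem_iff_notMem.2 hi
        rw [Set.sdiff_eq]
        exact Filter.inter_mem hx₁ this
      exact Filter.mem_of_superset (Filter.inter_mem hH₁D h3) subset_union_right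
  have hbD : b ∉ D := by
    intro hc
    rcases (Ultrafilter.union_mem_iff.1 hc) with h3 | h3
    · exact hi₂ h3
    · exact hH₂D (Filter.mem_of_superset h3 inter_subset_left)
  refine ⟨⟨a, b, q, r⟩, ?_, ?_⟩
  · constructor
    · rintro N (rfl | hN)
      · exact haD
      · exact hF.ha N hN
    · rintro N (rfl | hN)
      · exact hbD
      · exact hF.hb N hN
    · rintro N (rfl | hN)
      · exact hqr
      · exact hF.hqr N hN
    · rintro N (rfl | hN) N' (rfl | hN') ha' hb'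
      · rfl
      · exfalso
        apply hno
        refine ⟨N', hN', Or.inl ⟨?_, ?_⟩⟩
        · have := alpha S (i := i₁) (hH₁ N' hN' _ (by simp)) ha'
          rwa [ex₁] at this
        · have := alpha S (i := i₂) (hH₂ N' hN' _ (by simp)) hb'
          rwa [ex₂] at this
      · exfalso
        apply hno
        refine ⟨N, hN, Or.inr (Or.inl ⟨?_, ?_⟩)⟩
        · exact beta S hdis₁ (hH₁ N hN _ (by simp)) ha'
        · exact beta S hdis₂ (hH₂ N hN _ (by simp)) hb'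
      · exact hF.anti N hN N' hN' ha' hb'
    · rintro N (rfl | hN) N' (rfl | hN') hle
      · exfalso
        apply hself
        have h3 := beta S hdis₁ (hH₁' _ (by simp)) hle
        exact gamma S hdis₂ (hH₂' _ (by simp)) h3
      · exact hq N' hN' (gamma S hdis₂ (hH₂ N' hN' _ (by simp)) hle)
      · exact hr N hN (beta S hdis₁ (hH₁ N hN _ (by simp)) hle)
      · exact hF.rank N hN N' hN' hle
  · refine ⟨subset_union_left, subset_union_left, ?_, ?_⟩
    · exact union_subset h₁ (inter_subset_right.trans sdiff_subset)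
    · exact union_subset h₂ (inter_subset_right.trans sdiff_subset)

/-- insert a class inside `I` (A2 / C) -/
theorem inside (S : SIdeal C) (D : Ultrafilter C) (hD : ∀ A, S.small A → A ∉ D)
    {F : Set (Nd C)} (hF : Good S D F) (hsp : SplitHyp S F)
    (hbdd : ∃ κ : Ordinal.{0}, ∀ N ∈ F, N.r ≤ κ)
    {i₁ i₂ : Set C} (hi₁ : i₁ ∈ D)
    (hno2 : ∀ N ∈ F, ¬ (S.le N.a i₁ ∧ S.le N.b i₂))
    (hno3 : ∀ N ∈ F, ¬ (S.le i₁ N.a ∧ S.le i₂ N.b)) :
    ∃ N : Nd C, Good S D (insert N F) ∧ (N.a ⊆ i₁ ∧ N.b ⊆ i₂) := by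
  obtain ⟨κ, hκ⟩ := hbdd
  have hemp : (∅ : Set C) ∉ D := hD _ S.empty
  have hno : ¬ Ok S F ∅ ∅ i₁ i₂ := by
    rintro ⟨N, hN, h | h | h⟩
    · exact hno3 N hN h
    · have h3 : S.le N.a ∅ := h.1
      exact hemp (mem_of_le S D hD h3 (hF.ha N hN))
    · exact hno2 N hN h.2
  obtain ⟨N, hN, h⟩ := between S D hF hsp (i₁ := ∅) (i₂ := ∅) (x₁ := i₁) (x₂ := i₂)
    (empty_subset _) (empty_subset _) hemp hi₁ hno (q := κ) (r := Order.succ κ)
    (Order.lt_succ κ) (fun N hN _ => hκ N hN)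
    (fun N hN h => absurd (mem_of_le S D hD h
      (Ultrafilter.compl_mem_iff_notMem.2 (hF.hb N hN))) hemp)
    (fun h => hemp (mem_of_le S D hD h (by rw [compl_empty]; exact Filter.univ_mem)))
  exact ⟨N, hN, h.2.2.1, h.2.2.2⟩

theorem ext1 (S : SIdeal C) (D : Ultrafilter C) (hD : ∀ A, S.small A → A ∉ D)
    {F : Set (Nd C)} (hF : Good S D F) (hsp : SplitHyp S F)
    (hbdd : ∃ κ : Ordinal.{0}, ∀ N ∈ F, N.r ≤ κ)
    {i₁ i₂ x₁ x₂ : Set C} (h₁ : i₁ ⊆ x₁) (h₂ : i₂ ⊆ x₂)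
    (hno : ¬ Ok S F i₁ i₂ x₁ x₂)
    (hcase : (i₂ ∉ D ∧ x₁ ∈ D) ∨ (i₁ ∈ D ∧ i₂ ∈ D)) :
    ∃ N : Nd C, Good S D (insert N F) ∧ Ok S {N} i₁ i₂ x₁ x₂ := by
  have hno2 : ∀ N ∈ F, ¬ (S.le N.a i₁ ∧ S.le N.b i₂) := fun N hN h =>
    hno ⟨N, hN, Or.inr (Or.inl h)⟩
  rcases hcase with ⟨hi₂, hx₁⟩ | ⟨hi₁, hi₂⟩
  · have hyD : i₂ᶜ ∈ D := Ultrafilter.compl_mem_iff_notMem.2 hi₂
    by_cases hi₁ : i₁ ∈ D
    · by_cases hc : (¬ S.le i₂ᶜ i₁) ∧ ∃ q r : Ordinal.{0}, q < r ∧
          (∀ N ∈ F, S.le i₂ᶜ N.a → N.r ≤ q) ∧ (∀ N ∈ F, S.le N.bᶜ i₁ → r ≤ N.q)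
      · obtain ⟨hself, q, r, hqr, hq, hr⟩ := hc
        obtain ⟨N, hN, h⟩ := between S D hF hsp h₁ h₂ hi₂ hx₁ hno hqr hq hr hself
        exact ⟨N, hN, N, rfl, Or.inr (Or.inr ⟨⟨le_of_subset S h.1, le_of_subset S h.2.1⟩,
          ⟨le_of_subset S h.2.2.1, le_of_subset S h.2.2.2⟩⟩)⟩
      · have hno3 : ∀ N ∈ F, ¬ (S.le i₁ N.a ∧ S.le i₂ N.b) := by
          rintro N hN ⟨ha, hb⟩
          apply hc
          have hb' : S.le N.bᶜ i₂ᶜ := le_compl S hb
          refine ⟨?_, N.q, N.r, hF.hqr N hN, ?_, ?_⟩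
          · intro hle
            have h3 : S.le N.bᶜ N.a := le_trans S hb' (le_trans S hle ha)
            exact absurd (hF.rank N hN N hN h3) (not_le.2 (hF.hqr N hN))
          · intro N' hN' hle
            exact hF.rank N hN N' hN' (le_trans S hb' hle)
          · intro N' hN' hle
            exact hF.rank N' hN' N hN (le_trans S hle ha)
        obtain ⟨N, hN, h⟩ := inside S D hD hF hsp hbdd hi₁ hno2 hno3
        exact ⟨N, hN, N, rfl, Or.inr (Or.inl ⟨le_of_subset S h.1, le_of_subset S h.2⟩)⟩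
    · obtain ⟨κ, hκ⟩ := hbdd
      obtain ⟨N, hN, h⟩ := between S D hF hsp h₁ h₂ hi₂ hx₁ hno (q := κ) (r := Order.succ κ)
        (Order.lt_succ κ) (fun N hN _ => hκ N hN)
        (fun N hN h => absurd (mem_of_le S D hD h
          (Ultrafilter.compl_mem_iff_notMem.2 (hF.hb N hN))) hi₁)
        (fun h => hi₁ (mem_of_le S D hD h hyD))
      exact ⟨N, hN, N, rfl, Or.inr (Or.inr ⟨⟨le_of_subset S h.1, le_of_subset S h.2.1⟩,
          ⟨le_of_subset S h.2.2.1, le_of_subset S h.2.2.2⟩⟩)⟩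
  · have hno3 : ∀ N ∈ F, ¬ (S.le i₁ N.a ∧ S.le i₂ N.b) := by
      rintro N hN ⟨_, hb⟩
      exact hF.hb N hN (mem_of_le S D hD hb hi₂)
    obtain ⟨N, hN, h⟩ := inside S D hD hF hsp hbdd hi₁ hno2 hno3
    exact ⟨N, hN, N, rfl, Or.inr (Or.inl ⟨le_of_subset S h.1, le_of_subset S h.2⟩)⟩

/-- The extension lemma. -/
theorem extension (S : SIdeal C) (D : Ultrafilter C) (hD : ∀ A, S.small A → A ∉ D)
    {F : Set (Nd C)} (hF : Good S D F) (hsp : SplitHyp S F)
    (hbdd : ∃ κ : Ordinal.{0}, ∀ N ∈ F, N.r ≤ κ)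
    {i₁ i₂ x₁ x₂ : Set C} (h₁ : i₁ ⊆ x₁) (h₂ : i₂ ⊆ x₂)
    (hno : ¬ Ok S F i₁ i₂ x₁ x₂) (hno' : ¬ Ok S F x₁ᶜ x₂ᶜ i₁ᶜ i₂ᶜ) :
    ∃ N : Nd C, Good S D (insert N F) ∧
      (Ok S {N} i₁ i₂ x₁ x₂ ∨ Ok S {N} x₁ᶜ x₂ᶜ i₁ᶜ i₂ᶜ) := by
  have hmono₁ : i₁ ∈ D → x₁ ∈ D := fun h => Filter.mem_of_superset h h₁
  have hmono₂ : i₂ ∈ D → x₂ ∈ D := fun h => Filter.mem_of_superset h h₂
  by_cases hcase : (i₂ ∉ D ∧ x₁ ∈ D) ∨ (i₁ ∈ D ∧ i₂ ∈ D)
  · obtain ⟨N, hN, h⟩ := ext1 S D hD hF hsp hbdd h₁ h₂ hno hcase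
    exact ⟨N, hN, Or.inl h⟩
  · have hcase' : (x₂ᶜ ∉ D ∧ i₁ᶜ ∈ D) ∨ (x₁ᶜ ∈ D ∧ x₂ᶜ ∈ D) := by
      simp only [Ultrafilter.compl_mem_iff_notMem, not_not]
      by_cases a1 : i₁ ∈ D <;> by_cases a2 : i₂ ∈ D <;> by_cases a3 : x₁ ∈ D <;>
        by_cases a4 : x₂ ∈ D <;> simp_all
    obtain ⟨N, hN, h⟩ := ext1 S D hD hF hsp hbdd (compl_subset_compl.2 h₁)
      (compl_subset_compl.2 h₂) hno' hcase'
    exact ⟨N, hN, Or.inr h⟩

end Crest.Agent.R053.Ext
end

-- ▼ part R053/Rec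
section

/-!
# R53 [G] transfinite recursion
-/

set_option autoImplicit false

namespace Crest.Agent.R053.Rec

open Set Crest.Agent.R053 Crest.Agent.R053.Ext Cardinal

variable {C : Type}

/-- the condition attached to a quadruple -/
def OkP (S : SIdeal C) (F : Set (Nd C)) (p : Set C × Set C × Set C × Set C) : Prop :=
  Ok S F p.1 p.2.1 p.2.2.1 p.2.2.2 ∨ Ok S F p.2.2.1ᶜ p.2.2.2ᶜ p.1ᶜ p.2.1ᶜ

theorem Ok.mono {S : SIdeal C} {F F' : Set (Nd C)} (h : F ⊆ F') {i₁ i₂ x₁ x₂ : Set C}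
    (hok : Ok S F i₁ i₂ x₁ x₂) : Ok S F' i₁ i₂ x₁ x₂ := by
  obtain ⟨N, hN, h'⟩ := hok
  exact ⟨N, h hN, h'⟩

theorem OkP.mono {S : SIdeal C} {F F' : Set (Nd C)} (h : F ⊆ F')
    {p : Set C × Set C × Set C × Set C} (hok : OkP S F p) : OkP S F' p := by
  rcases hok with h1 | h1
  · exact Or.inl (Ok.mono h h1)
  · exact Or.inr (Ok.mono h h1)

/-- `Good` is a pairwise condition. -/
theorem good_of_pairs {S : SIdeal C} {D : Ultrafilter C} {F : Set (Nd C)}
    (h : ∀ N ∈ F, ∀ N' ∈ F, ∃ F', N ∈ F' ∧ N' ∈ F' ∧ Good S D F') : Good S D F := by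
  constructor
  · intro N hN
    obtain ⟨F', h1, _, h2⟩ := h N hN N hN
    exact h2.ha N h1
  · intro N hN
    obtain ⟨F', h1, _, h2⟩ := h N hN N hN
    exact h2.hb N h1
  · intro N hN
    obtain ⟨F', h1, _, h2⟩ := h N hN N hN
    exact h2.hqr N h1
  · intro N hN N' hN'
    obtain ⟨F', h1, h1', h2⟩ := h N hN N' hN'
    exact h2.anti N h1 N' h1'
  · intro N hN N' hN'
    obtain ⟨F', h1, h1', h2⟩ := h N hN N' hN'
    exact h2.rank N h1 N' h1'

section rec

variable (S : SIdeal C) (D : Ultrafilter C) {T : Type} [LinearOrder T] [WellFoundedLT T]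
  (e : T → Set C × Set C × Set C × Set C)

/-- family built before stage `t` from a function on the initial segment -/
def Fam {t : T} (g : ∀ u, u < t → Option (Nd C)) : Set (Nd C) :=
  {N | ∃ u, ∃ h : u < t, g u h = some N}

open Classical in
/-- one step -/
noncomputable def step (t : T) (g : ∀ u, u < t → Option (Nd C)) : Option (Nd C) :=
  if h : ¬ OkP S (Fam g) (e t) ∧ ∃ N, Good S D (insert N (Fam g)) ∧ OkP S {N} (e t)
  then some h.2.choose else none

/-- the recursively built sequence -/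
noncomputable def seq (t : T) : Option (Nd C) :=
  WellFounded.fix (wellFounded_lt (α := T)) (fun t g => step S D e t g) t

/-- family before stage `t` -/
def Flt (t : T) : Set (Nd C) := {N | ∃ u, u < t ∧ seq S D e u = some N}

/-- whole family -/
def Fall : Set (Nd C) := {N | ∃ u : T, seq S D e u = some N}

theorem seq_eq (t : T) : seq S D e t = step S D e t (fun u _ => seq S D e u) := by
  unfold seq
  exact WellFounded.fix_eq _ _ _

theorem fam_eq (t : T) : Fam (t := t) (fun u _ => seq S D e u) = Flt S D e t := by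
  ext N
  simp only [Fam, Flt, mem_ofPred_eq, exists_prop]

omit [WellFoundedLT T] in
theorem step_cases (t : T) (g : ∀ u, u < t → Option (Nd C)) :
    (step S D e t g = none ∧ ¬ (¬ OkP S (Fam g) (e t) ∧
      ∃ N, Good S D (insert N (Fam g)) ∧ OkP S {N} (e t))) ∨
    ∃ N, step S D e t g = some N ∧ Good S D (insert N (Fam g)) ∧ OkP S {N} (e t) := by
  by_cases h : ¬ OkP S (Fam g) (e t) ∧ ∃ N, Good S D (insert N (Fam g)) ∧ OkP S {N} (e t)
  · right
    refine ⟨h.2.choose, ?_, h.2.choose_spec⟩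
    unfold step
    rw [dif_pos h]
  · left
    refine ⟨?_, h⟩
    unfold step
    rw [dif_neg h]

theorem seq_cases (t : T) :
    (seq S D e t = none ∧ ¬ (¬ OkP S (Flt S D e t) (e t) ∧
      ∃ N, Good S D (insert N (Flt S D e t)) ∧ OkP S {N} (e t))) ∨
    ∃ N, seq S D e t = some N ∧ Good S D (insert N (Flt S D e t)) ∧ OkP S {N} (e t) := by
  have := step_cases S D e t (fun u _ => seq S D e u)
  rw [← seq_eq, fam_eq] at this
  exact this

theorem good_Flt (t : T) : Good S D (Flt S D e t) := by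
  induction t using WellFoundedLT.induction with
  | ind t ih =>
    have hle : ∀ u < t, ∃ F', Good S D F' ∧ Flt S D e u ⊆ F' ∧ ∀ N, seq S D e u = some N → N ∈ F' := by
      intro u hu
      rcases seq_cases S D e u with ⟨h1, _⟩ | ⟨N, h1, h2, _⟩
      · refine ⟨Flt S D e u, ih u hu, Subset.rfl, ?_⟩
        intro N hN
        rw [h1] at hN
        exact absurd hN (by simp)
      · refine ⟨_, h2, subset_insert _ _, ?_⟩
        intro N' hN'
        rw [h1] at hN'
        simp only [Option.some.injEq] at hN'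
        exact hN' ▸ mem_insert _ _
    apply good_of_pairs
    rintro N ⟨u, hu, hN⟩ N' ⟨u', hu', hN'⟩
    rcases lt_trichotomy u u' with h | h | h
    · obtain ⟨F', h1, h2, h3⟩ := hle u' hu'
      exact ⟨F', h2 ⟨u, h, hN⟩, h3 _ hN', h1⟩
    · subst h
      obtain ⟨F', h1, h2, h3⟩ := hle u hu
      exact ⟨F', h3 _ hN, h3 _ hN', h1⟩
    · obtain ⟨F', h1, h2, h3⟩ := hle u hu
      exact ⟨F', h3 _ hN, h2 ⟨u', h, hN'⟩, h1⟩

theorem good_Fall [NoMaxOrder T] : Good S D (Fall S D e) := by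
  apply good_of_pairs
  rintro N ⟨u, hN⟩ N' ⟨u', hN'⟩
  obtain ⟨v, hv⟩ := exists_gt (max u u')
  exact ⟨Flt S D e v, ⟨u, (le_max_left _ _).trans_lt hv, hN⟩,
    ⟨u', (le_max_right _ _).trans_lt hv, hN'⟩, good_Flt S D e v⟩

theorem okP_Fall (hD : ∀ A, S.small A → A ∉ D) (t : T)
    (hsp : SplitHyp S (Flt S D e t)) (h₁ : (e t).1 ⊆ (e t).2.2.1)
    (h₂ : (e t).2.1 ⊆ (e t).2.2.2) : OkP S (Fall S D e) (e t) := by
  have hsub : Flt S D e t ⊆ Fall S D e := by
    rintro N ⟨u, _, hN⟩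
    exact ⟨u, hN⟩
  rcases seq_cases S D e t with ⟨h1, h2⟩ | ⟨N, h1, h2, h3⟩
  · by_cases hok : OkP S (Flt S D e t) (e t)
    · exact hok.mono hsub
    · exfalso
      apply h2
      refine ⟨hok, ?_⟩
      have hbdd : ∃ κ : Ordinal.{0}, ∀ N ∈ Flt S D e t, N.r ≤ κ := by
        let φ : T → Ordinal.{0} := fun u => match seq S D e u with
          | none => 0
          | some N => N.r
        obtain ⟨κ, hκ⟩ := Ordinal.bddAbove_of_small (s := Set.range φ)
        refine ⟨κ, ?_⟩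
        rintro N ⟨u, _, hN⟩
        have := hκ (mem_range_self u)
        simpa [φ, hN] using this
      obtain ⟨N, hN, h⟩ := extension S D hD (good_Flt S D e t) hsp hbdd h₁ h₂
        (fun h => hok (Or.inl h)) (fun h => hok (Or.inr h))
      exact ⟨N, hN, h⟩
  · refine h3.mono ?_
    rintro N' rfl
    exact ⟨t, h1⟩

end rec

theorem mk_quad_le [Countable C] : #(Set C × Set C × Set C × Set C) ≤ 𝔠 := by
  have h1 : #(Set C) ≤ 𝔠 := by
    rw [Cardinal.mk_set, ← Cardinal.two_power_aleph0]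
    exact Cardinal.power_le_power_left two_ne_zero (Cardinal.mk_le_aleph0)
  have h2 : (𝔠 : Cardinal.{0}) * 𝔠 = 𝔠 := Cardinal.mul_eq_self Cardinal.aleph0_le_continuum
  simp only [Cardinal.mk_prod, Cardinal.lift_id]
  calc #(Set C) * (#(Set C) * (#(Set C) * #(Set C)))
      ≤ 𝔠 * (𝔠 * (𝔠 * 𝔠)) := mul_le_mul' h1 (mul_le_mul' h1 (mul_le_mul' h1 h1))
    _ = 𝔠 := by rw [h2, h2, h2]

theorem splitHyp_Flt (S : SIdeal C) (D : Ultrafilter C) {T : Type} [LinearOrder T]
    [WellFoundedLT T] (hT : ∀ t : T, #(Iio t) < 𝔠)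
    (e : T → Set C × Set C × Set C × Set C)
    (H : (ℕ → Bool) → Set C) (hH : ∀ P, ¬ S.small P → {z | ¬ Splits S (H z) P}.Finite) (t : T) :
    SplitHyp S (Flt S D e t) := by
  intro f g
  have hfin : ∀ P, {z | ¬ Sp S (H z) P}.Finite := by
    intro P
    by_cases hP : S.small P
    · refine Set.Finite.subset Set.finite_empty ?_
      intro z hz
      exact hz (fun h => absurd hP h)
    · refine (hH P hP).subset ?_
      intro z hz hc
      exact hz (fun _ => hc)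
  let bad : T → Set (ℕ → Bool) := fun u => match seq S D e u with
    | none => ∅
    | some N => {z | ∃ P ∈ f N, ¬ Sp S (H z) P}
  have hbad : ∀ u, (bad u).Countable := by
    intro u
    simp only [bad]
    cases seq S D e u with
    | none => exact Set.countable_empty
    | some N =>
      have : {z | ∃ P ∈ f N, ¬ Sp S (H z) P} = ⋃ P ∈ f N, {z | ¬ Sp S (H z) P} := by
        ext z; simp
      show {z | ∃ P ∈ f N, ¬ Sp S (H z) P}.Countable
      rw [this]
      exact (Set.Finite.biUnion (List.finite_toSet (f N)) (fun P _ => hfin P)).countable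
  have hg : {z | ∃ P ∈ g, ¬ Sp S (H z) P}.Countable := by
    have : {z | ∃ P ∈ g, ¬ Sp S (H z) P} = ⋃ P ∈ g, {z | ¬ Sp S (H z) P} := by
      ext z; simp
    rw [this]
    exact (Set.Finite.biUnion (List.finite_toSet g) (fun P _ => hfin P)).countable
  have hcard : #(↥((⋃ u : Iio t, bad u) ∪ {z | ∃ P ∈ g, ¬ Sp S (H z) P})) < 𝔠 := by
    refine (Cardinal.mk_union_le _ _).trans_lt (Cardinal.add_lt_of_lt Cardinal.aleph0_le_continuum
      ?_ ?_)
    · refine (Cardinal.mk_iUnion_le _).trans_lt ?_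
      refine Cardinal.mul_lt_of_lt Cardinal.aleph0_le_continuum (hT t) ?_
      refine lt_of_le_of_lt (b := ℵ₀) ?_ Cardinal.aleph0_lt_continuum
      apply ciSup_le'
      intro u
      exact (hbad u).le_aleph0
    · exact (hg.le_aleph0).trans_lt Cardinal.aleph0_lt_continuum
  have hex : ∃ z : ℕ → Bool, z ∉ ((⋃ u : Iio t, bad u) ∪ {z | ∃ P ∈ g, ¬ Sp S (H z) P}) := by
    by_contra hc
    push Not at hc
    have huniv : ((⋃ u : Iio t, bad u) ∪ {z | ∃ P ∈ g, ¬ Sp S (H z) P}) = Set.univ :=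
      Set.eq_univ_of_forall hc
    rw [huniv, Cardinal.mk_univ] at hcard
    have : #(ℕ → Bool) = 𝔠 := by simp
    rw [this] at hcard
    exact lt_irrefl _ hcard
  obtain ⟨z, hz⟩ := hex
  simp only [mem_union, mem_iUnion, not_or, not_exists] at hz
  refine ⟨H z, ?_, ?_⟩
  · rintro N ⟨u, hu, hN⟩ P hP
    by_contra hc
    apply hz.1 ⟨u, hu⟩
    simp only [bad, hN]
    exact ⟨P, hP, hc⟩
  · intro P hP
    by_contra hc
    exact hz.2 ⟨P, hP, hc⟩

theorem exists_final [Countable C] (S : SIdeal C) (D : Ultrafilter C)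
    (hD : ∀ A, S.small A → A ∉ D) (H : (ℕ → Bool) → Set C)
    (hH : ∀ P, ¬ S.small P → {z | ¬ Splits S (H z) P}.Finite) :
    ∃ F, Final S D F := by
  classical
  let T : Type := (𝔠).ord.ToType
  have hT : #T = 𝔠 := by simp [T]
  have hlim : NoMaxOrder T := Cardinal.noMaxOrder Cardinal.aleph0_le_continuum
  obtain ⟨e, he⟩ : ∃ e : T → Set C × Set C × Set C × Set C, Function.Surjective e := by
    have h1 : #(Set C × Set C × Set C × Set C) ≤ #T := by rw [hT]; exact mk_quad_le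
    obtain ⟨φ⟩ := Cardinal.le_def _ _ |>.1 h1
    exact ⟨Function.invFun φ, Function.invFun_surjective φ.injective⟩
  have hIio : ∀ t : T, #(Iio t) < 𝔠 := by
    intro t
    have := Cardinal.mk_Iio_lt t (by simp [T])
    rwa [hT] at this
  have hsp : ∀ t, SplitHyp S (Flt S D e t) := splitHyp_Flt S D hIio e H hH
  refine ⟨Fall S D e, { toGood := good_Fall S D e, all := ?_ }⟩
  intro i₁ i₂ x₁ x₂ h₁ h₂
  obtain ⟨t, ht⟩ := he (i₁, i₂, x₁, x₂)
  have := okP_Fall S D e hD t (hsp t) (by rw [ht]; exact h₁) (by rw [ht]; exact h₂)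
  rw [ht] at this
  exact this

end Crest.Agent.R053.Rec
end

-- ▼ part R053/Split
section

/-!
# R53 (S0074), block [S]: the splitting lemma

The ground set `CC` is a disjoint union of blocks, the `n`-th one consisting of all functions
`2^n → 2`.  A set is small if its density in the blocks tends to `0`.  The sets `H z`
(`z : ℕ → Bool`) are mutually independent halves, so that every non-small set is split by all
but finitely many of them.
-/

set_option autoImplicit false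

namespace Crest.Agent.R053.Split

open Set Filter Topology

/-- number of elements of `A` in block `n` -/
noncomputable def cnt (A : Set CC) (n : ℕ) : ℕ := {f | (⟨n, f⟩ : CC) ∈ A}.ncard

theorem cnt_mono {A B : Set CC} (h : A ⊆ B) (n : ℕ) : cnt A n ≤ cnt B n :=
  Set.ncard_le_ncard (fun _ hf => h hf) (Set.toFinite _)

theorem cnt_union_le (A B : Set CC) (n : ℕ) : cnt (A ∪ B) n ≤ cnt A n + cnt B n :=
  Set.ncard_union_le _ _

theorem cnt_univ (n : ℕ) : cnt Set.univ n = 2 ^ 2 ^ n := by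
  unfold cnt
  simp [Set.ncard_univ, Nat.card_eq_fintype_card]

theorem gpos (n : ℕ) : (0 : ℝ) < 2 ^ 2 ^ n := by positivity

/-- The ideal of sets whose block densities tend to `0`. -/
def ccIdeal : SIdeal CC where
  small A := Tendsto (fun n => ({f | (⟨n, f⟩ : CC) ∈ A}.ncard : ℝ) / 2 ^ 2 ^ n) atTop (𝓝 0)
  mono := by
    intro s t h ht
    refine squeeze_zero (fun n => by positivity) (fun n => ?_) ht
    have h2 : ({f | (⟨n, f⟩ : CC) ∈ s}.ncard : ℝ) ≤ ({f | (⟨n, f⟩ : CC) ∈ t}.ncard : ℝ) := by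
      exact_mod_cast cnt_mono h n
    exact div_le_div_of_nonneg_right h2 (gpos n).le
  union := by
    intro s t hs ht
    have hst := hs.add ht
    rw [add_zero] at hst
    refine squeeze_zero (fun n => by positivity) (fun n => ?_) hst
    rw [← add_div]
    have h2 : ({f | (⟨n, f⟩ : CC) ∈ s ∪ t}.ncard : ℝ) ≤
        ({f | (⟨n, f⟩ : CC) ∈ s}.ncard : ℝ) + ({f | (⟨n, f⟩ : CC) ∈ t}.ncard : ℝ) := by
      exact_mod_cast cnt_union_le s t n
    exact div_le_div_of_nonneg_right h2 (gpos n).le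
  singleton := by
    rintro ⟨m, g⟩
    refine (tendsto_const_nhds (x := (0 : ℝ))).congr' ?_
    filter_upwards [eventually_gt_atTop m] with n hn
    have : {f | (⟨n, f⟩ : CC) ∈ ({⟨m, g⟩} : Set CC)} = ∅ := by
      ext f
      simp only [mem_singleton_iff, mem_ofPred_eq, mem_empty_iff_false, iff_false]
      intro h
      have := congrArg Sigma.fst h
      simp at this
      omega
    rw [this]
    simp
  empty := by simp

theorem small_iff (A : Set CC) :
    ccIdeal.small A ↔ Tendsto (fun n => (cnt A n : ℝ) / 2 ^ 2 ^ n) atTop (𝓝 0) := Iff.rfl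

/-- the half attached to a branch `z` -/
def H (z : ℕ → Bool) : Set CC := {x | x.2 (fun i => z i) = true}

/-- counting: prescribing the values on a finset `W` -/
theorem card_prescribed (n : ℕ) (W : Finset (Fin n → Bool)) (t : (Fin n → Bool) → Bool) :
    2 ^ W.card * {f : (Fin n → Bool) → Bool | ∀ w ∈ W, f w = t w}.ncard = 2 ^ 2 ^ n := by
  classical
  have h1 : {f : (Fin n → Bool) → Bool | ∀ w ∈ W, f w = t w}
      = ((Fintype.piFinset (fun w => if w ∈ W then {t w} else Finset.univ) :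
          Finset ((Fin n → Bool) → Bool)) : Set ((Fin n → Bool) → Bool)) := by
    ext f
    simp only [mem_ofPred_eq, Finset.mem_coe, Fintype.mem_piFinset]
    constructor
    · intro h w
      by_cases hw : w ∈ W
      · simp [hw, h w hw]
      · simp [hw]
    · intro h w hw
      have := h w
      simpa [hw] using this
  rw [h1, Set.ncard_coe_finset, Fintype.card_piFinset]
  have h2 : (2 : ℕ) ^ W.card = ∏ w : (Fin n → Bool), (if w ∈ W then 2 else 1) := by
    rw [Finset.prod_ite]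
    simp
  rw [h2, ← Finset.prod_mul_distrib]
  have h3 : ∀ w : (Fin n → Bool), (if w ∈ W then 2 else 1) *
      (if w ∈ W then ({t w} : Finset Bool) else Finset.univ).card = 2 := by
    intro w
    by_cases hw : w ∈ W <;> simp [hw]
  simp only [h3]
  simp

/-- eventually, the restrictions to `n` of the members of a finite set of branches are distinct -/
theorem eventually_injOn (Z : Finset (ℕ → Bool)) :
    ∀ᶠ n in atTop, Set.InjOn (fun (z : ℕ → Bool) (i : Fin n) => z i) (Z : Set (ℕ → Bool)) := by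
  classical
  have key : ∀ p ∈ Z ×ˢ Z, ∀ᶠ n : ℕ in atTop,
      ((fun i : Fin n => p.1 i) = (fun i : Fin n => p.2 i) → p.1 = p.2) := by
    rintro ⟨z, w⟩ -
    by_cases h : z = w
    · exact Eventually.of_forall (fun _ _ => h)
    · obtain ⟨k, hk⟩ := Function.ne_iff.1 h
      filter_upwards [eventually_gt_atTop k] with n hn heq
      exact absurd (congrFun heq ⟨k, hn⟩) hk
  have := (Filter.eventually_all_finset (Z ×ˢ Z)).2 key
  filter_upwards [this] with n hn z hz w hw h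
  exact hn (z, w) (by simpa using ⟨hz, hw⟩) h

/-- A Boolean combination of `k` distinct halves has density `2^-k` in all late blocks. -/
theorem cnt_comb (Z : Finset (ℕ → Bool)) (s : (ℕ → Bool) → Bool) :
    ∀ᶠ n in atTop,
      2 ^ Z.card * cnt {x : CC | ∀ z ∈ Z, x.2 (fun i => z i) = s z} n = 2 ^ 2 ^ n := by
  classical
  filter_upwards [eventually_injOn Z] with n hn
  let ρ : (ℕ → Bool) → (Fin n → Bool) := fun z i => z i
  let W : Finset (Fin n → Bool) := Z.image ρ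
  have hW : W.card = Z.card := Finset.card_image_of_injOn hn
  let t : (Fin n → Bool) → Bool := fun w =>
    if h : ∃ z ∈ Z, ρ z = w then s h.choose else true
  have ht : ∀ z ∈ Z, t (ρ z) = s z := by
    intro z hz
    have h : ∃ z' ∈ Z, ρ z' = ρ z := ⟨z, hz, rfl⟩
    have h2 : t (ρ z) = s h.choose := by
      simp only [t]
      rw [dif_pos h]
    rw [h2]
    congr 1
    exact hn h.choose_spec.1 hz h.choose_spec.2
  have hset : {f : (Fin n → Bool) → Bool | (⟨n, f⟩ : CC) ∈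
      {x : CC | ∀ z ∈ Z, x.2 (fun i => z i) = s z}} = {f | ∀ w ∈ W, f w = t w} := by
    ext f
    simp only [mem_ofPred_eq, W, Finset.mem_image]
    constructor
    · rintro h w ⟨z, hz, rfl⟩
      rw [ht z hz]
      exact h z hz
    · intro h z hz
      have := h (ρ z) ⟨z, hz, rfl⟩
      rw [ht z hz] at this
      exact this
  have := card_prescribed n W t
  rw [hW] at this
  unfold cnt
  rw [hset]
  exact this

/-- Finite unions of small sets are small. -/
theorem small_biUnion {ι : Type*} (Z : Finset ι) (A : ι → Set CC)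
    (h : ∀ z ∈ Z, ccIdeal.small (A z)) : ccIdeal.small (⋃ z ∈ Z, A z) := by
  classical
  induction Z using Finset.induction_on with
  | empty => simpa using ccIdeal.empty
  | insert a Z _ ih =>
    rw [Finset.set_biUnion_insert]
    exact ccIdeal.union (h a (Finset.mem_insert_self _ _))
      (ih fun z hz => h z (Finset.mem_insert_of_mem hz))

/-- A non-small set is split by all but finitely many of the halves `H z`. -/
theorem finite_not_splits {P : Set CC} (hP : ¬ ccIdeal.small P) :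
    {z | ¬ Splits ccIdeal (H z) P}.Finite := by
  classical
  by_contra hinf
  have hinf : {z | ¬ Splits ccIdeal (H z) P}.Infinite := hinf
  -- positive upper density
  have hpos : ∃ ε > (0 : ℝ), ∃ᶠ n in atTop, ε ≤ (cnt P n : ℝ) / 2 ^ 2 ^ n := by
    by_contra hcon
    push Not at hcon
    apply hP
    rw [small_iff, Metric.tendsto_nhds]
    intro ε hε
    have := hcon ε hε
    filter_upwards [this] with n hn
    rw [Real.dist_eq, sub_zero, abs_of_nonneg (by positivity)]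
    exact hn
  obtain ⟨ε, hε, hfreq⟩ := hpos
  obtain ⟨k, hk⟩ := exists_pow_lt_of_lt_one (half_pos hε) (by norm_num : (1 / 2 : ℝ) < 1)
  obtain ⟨Z, hZsub, hZcard⟩ := hinf.exists_subset_card_eq k
  -- for each bad `z` choose the side
  have hside : ∀ z ∈ Z, ∃ b : Bool, ccIdeal.small (P \ {x : CC | x.2 (fun i => z i) = b}) := by
    intro z hz
    have hz' := hZsub hz
    simp only [mem_ofPred_eq, Splits, not_and_or, not_not] at hz'
    rcases hz' with h | h
    · refine ⟨false, ccIdeal.mono ?_ h⟩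
      rintro x ⟨hx, hx2⟩
      exact ⟨hx, by simpa [H] using hx2⟩
    · refine ⟨true, ccIdeal.mono ?_ h⟩
      rintro x ⟨hx, hx2⟩
      exact ⟨hx, by simpa [H] using hx2⟩
  choose! s hs using hside
  have hsmall := small_biUnion Z _ hs
  have hcov : P ⊆ (⋃ z ∈ Z, P \ {x : CC | x.2 (fun i => z i) = s z}) ∪
      {x : CC | ∀ z ∈ Z, x.2 (fun i => z i) = s z} := by
    intro x hx
    by_cases h : ∀ z ∈ Z, x.2 (fun i => z i) = s z
    · exact Or.inr h
    · left
      push Not at h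
      obtain ⟨z, hz, hne⟩ := h
      simp only [mem_iUnion]
      exact ⟨z, hz, hx, hne⟩
  have hev1 : ∀ᶠ n in atTop,
      (cnt (⋃ z ∈ Z, P \ {x : CC | x.2 (fun i => z i) = s z}) n : ℝ) / 2 ^ 2 ^ n < ε / 2 :=
    (tendsto_order.1 ((small_iff _).1 hsmall)).2 _ (half_pos hε)
  obtain ⟨n, hn0, hn1, hn2⟩ := (hfreq.and_eventually (hev1.and (cnt_comb Z s))).exists
  have hle : (cnt P n : ℝ) ≤ cnt (⋃ z ∈ Z, P \ {x : CC | x.2 (fun i => z i) = s z}) n +
      cnt {x : CC | ∀ z ∈ Z, x.2 (fun i => z i) = s z} n := by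
    exact_mod_cast (cnt_mono hcov n).trans (cnt_union_le _ _ n)
  have hcomb : (cnt {x : CC | ∀ z ∈ Z, x.2 (fun i => z i) = s z} n : ℝ) / 2 ^ 2 ^ n
      = (1 / 2) ^ k := by
    have h2 : ((2 : ℝ) ^ k * cnt {x : CC | ∀ z ∈ Z, x.2 (fun i => z i) = s z} n) = 2 ^ 2 ^ n := by
      rw [← hZcard]
      exact_mod_cast hn2
    rw [← h2, one_div, inv_pow]
    have h3 : (cnt {x : CC | ∀ z ∈ Z, x.2 (fun i => z i) = s z} n : ℝ) ≠ 0 := by
      intro h0
      rw [h0, mul_zero] at h2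
      exact (gpos n).ne h2
    field_simp
  have : (cnt P n : ℝ) / 2 ^ 2 ^ n < ε := by
    calc (cnt P n : ℝ) / 2 ^ 2 ^ n
        ≤ (cnt (⋃ z ∈ Z, P \ {x : CC | x.2 (fun i => z i) = s z}) n +
          cnt {x : CC | ∀ z ∈ Z, x.2 (fun i => z i) = s z} n) / 2 ^ 2 ^ n := by gcongr
      _ = (cnt (⋃ z ∈ Z, P \ {x : CC | x.2 (fun i => z i) = s z}) n : ℝ) / 2 ^ 2 ^ n
          + (1 / 2) ^ k := by rw [add_div, hcomb]
      _ < ε := by linarith
  linarith

/-- `univ` is not small. -/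
theorem not_small_univ : ¬ ccIdeal.small (Set.univ : Set CC) := by
  rw [small_iff]
  intro h
  have h1 : Tendsto (fun n : ℕ => (cnt Set.univ n : ℝ) / 2 ^ 2 ^ n) atTop (𝓝 1) := by
    refine tendsto_const_nhds.congr (fun n => ?_)
    rw [cnt_univ]
    push_cast
    rw [div_self (gpos n).ne']
  exact zero_ne_one (tendsto_nhds_unique h h1)

/-- an ultrafilter avoiding all small sets -/
theorem exists_ultrafilter : ∃ D : Ultrafilter CC, ∀ A, ccIdeal.small A → A ∉ D := by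
  let F : Filter CC :=
    { sets := {A | ccIdeal.small Aᶜ}
      univ_sets := by simpa using ccIdeal.empty
      sets_of_superset := by
        intro x y hx hxy
        exact ccIdeal.mono (compl_subset_compl.2 hxy) hx
      inter_sets := by
        intro x y hx hy
        show ccIdeal.small (x ∩ y)ᶜ
        rw [compl_inter]
        exact ccIdeal.union hx hy }
  have hF : F.NeBot := by
    rw [Filter.neBot_iff]
    intro h
    have : (∅ : Set CC) ∈ F := by rw [h]; trivial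
    have h2 : ccIdeal.small (∅ : Set CC)ᶜ := this
    rw [compl_empty] at h2
    exact not_small_univ h2
  refine ⟨Ultrafilter.of F, fun A hA hAD => ?_⟩
  have h1 : Aᶜ ∈ F := by
    show ccIdeal.small Aᶜᶜ
    rwa [compl_compl]
  have h2 : Aᶜ ∈ Ultrafilter.of F := Ultrafilter.of_le F h1
  exact (Ultrafilter.compl_mem_iff_notMem.1 h2) hAD

/-! ### the hypotheses of block [L] for `ccIdeal.sum` -/

/-- the block function on `CC ⊕ CC` -/
def blk : CC ⊕ CC → ℕ := Sum.elim (·.1) (·.1)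

/-- the weights -/
noncomputable def g (n : ℕ) : ℝ := 2 ^ 2 ^ n

theorem g_pos (n : ℕ) : 0 < g n := gpos n

theorem g_tendsto : Tendsto g atTop atTop := by
  have h1 : Tendsto (fun n : ℕ => (2 : ℝ) ^ n) atTop atTop :=
    tendsto_pow_atTop_atTop_of_one_lt (by norm_num)
  have h2 : Tendsto (fun n : ℕ => 2 ^ n) atTop atTop :=
    tendsto_pow_atTop_atTop_of_one_lt (by norm_num : 1 < 2)
  exact h1.comp h2

theorem block_eq (s : Set (CC ⊕ CC)) (n : ℕ) : {x ∈ s | blk x = n} =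
    (fun f => Sum.inl ⟨n, f⟩) '' {f | (⟨n, f⟩ : CC) ∈ Sum.inl ⁻¹' s} ∪
    (fun f => Sum.inr ⟨n, f⟩) '' {f | (⟨n, f⟩ : CC) ∈ Sum.inr ⁻¹' s} := by
  ext x
  constructor
  · rintro ⟨hx, hb⟩
    rcases x with ⟨m, f⟩ | ⟨m, f⟩
    · obtain rfl : m = n := hb
      exact Or.inl ⟨f, hx, rfl⟩
    · obtain rfl : m = n := hb
      exact Or.inr ⟨f, hx, rfl⟩
  · rintro (⟨f, hf, rfl⟩ | ⟨f, hf, rfl⟩)
    · exact ⟨hf, rfl⟩
    · exact ⟨hf, rfl⟩

/-- the blocks are finite -/
theorem block_finite (s : Set (CC ⊕ CC)) (n : ℕ) : {x ∈ s | blk x = n}.Finite := by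
  rw [block_eq]
  exact (Set.toFinite _).union (Set.toFinite _)

theorem fiber_finite (n : ℕ) : {x : CC ⊕ CC | blk x = n}.Finite :=
  (block_finite Set.univ n).subset (fun _ hx => ⟨trivial, hx⟩)

theorem fiber_le_finite (n : ℕ) : {x : CC ⊕ CC | blk x ≤ n}.Finite := by
  have : {x : CC ⊕ CC | blk x ≤ n} = ⋃ i ∈ Finset.range (n + 1), {x | blk x = i} := by
    ext x
    simp
  rw [this]
  exact Set.Finite.biUnion (Finset.finite_toSet _) (fun i _ => fiber_finite i)

theorem block_card (s : Set (CC ⊕ CC)) (n : ℕ) : {x ∈ s | blk x = n}.ncard =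
    cnt (Sum.inl ⁻¹' s) n + cnt (Sum.inr ⁻¹' s) n := by
  rw [block_eq, Set.ncard_union_eq ?_ (Set.toFinite _) (Set.toFinite _),
    Set.ncard_image_of_injective, Set.ncard_image_of_injective]
  · rfl
  · intro f f' h
    simpa using h
  · intro f f' h
    simpa using h
  · rw [Set.disjoint_left]
    rintro x ⟨f, _, rfl⟩ ⟨f', _, h⟩
    simp at h

/-- first hypothesis of [L] -/
theorem sum_small_iff (s : Set (CC ⊕ CC)) : ccIdeal.sum.small s ↔
    Tendsto (fun n => ({x ∈ s | blk x = n}.ncard : ℝ) / g n) atTop (𝓝 0) := by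
  have heq : (fun n => ({x ∈ s | blk x = n}.ncard : ℝ) / g n) = fun n =>
      (cnt (Sum.inl ⁻¹' s) n : ℝ) / 2 ^ 2 ^ n + (cnt (Sum.inr ⁻¹' s) n : ℝ) / 2 ^ 2 ^ n := by
    funext n
    rw [block_card]
    push_cast
    rw [add_div]
    rfl
  rw [heq]
  constructor
  · rintro ⟨h1, h2⟩
    have := ((small_iff _).1 h1).add ((small_iff _).1 h2)
    rwa [add_zero] at this
  · intro h
    refine ⟨(small_iff _).2 ?_, (small_iff _).2 ?_⟩
    · refine squeeze_zero (fun n => by positivity) (fun n => ?_) h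
      have : (0 : ℝ) ≤ (cnt (Sum.inr ⁻¹' s) n : ℝ) / 2 ^ 2 ^ n := by positivity
      linarith
    · refine squeeze_zero (fun n => by positivity) (fun n => ?_) h
      have : (0 : ℝ) ≤ (cnt (Sum.inl ⁻¹' s) n : ℝ) / 2 ^ 2 ^ n := by positivity
      linarith

/-- number of elements in the blocks before `n` -/
noncomputable def before (n : ℕ) : ℕ := {x : CC ⊕ CC | blk x < n}.ncard

theorem before_finite (n : ℕ) : {x : CC ⊕ CC | blk x < n}.Finite :=
  (fiber_le_finite n).subset (fun x hx => show blk x ≤ n from le_of_lt (show blk x < n from hx))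

theorem fiber_card (n : ℕ) : {x : CC ⊕ CC | blk x = n}.ncard = 2 * 2 ^ 2 ^ n := by
  have h := block_card Set.univ n
  have h2 : {x ∈ (Set.univ : Set (CC ⊕ CC)) | blk x = n} = {x | blk x = n} := by
    ext x; simp
  rw [h2] at h
  rw [h, preimage_univ, preimage_univ, cnt_univ]
  ring

theorem before_succ_le (n : ℕ) : before (n + 1) ≤ before n + 2 * 2 ^ 2 ^ n := by
  rw [← fiber_card]
  have : {x : CC ⊕ CC | blk x < n + 1} ⊆ {x | blk x < n} ∪ {x | blk x = n} := by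
    intro x hx
    simp only [mem_ofPred_eq, mem_union] at hx ⊢
    omega
  exact (Set.ncard_le_ncard this ((before_finite n).union (fiber_finite n))).trans
    (Set.ncard_union_le _ _)

theorem before_le (n : ℕ) : (before n : ℝ) ≤ 2 * g n := by
  induction n with
  | zero =>
    have : before 0 = 0 := by
      unfold before
      have : {x : CC ⊕ CC | blk x < 0} = ∅ := by ext x; simp
      rw [this, Set.ncard_empty]
    rw [this]
    have := g_pos 0
    push_cast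
    linarith
  | succ n ih =>
    have h1 : (before (n + 1) : ℝ) ≤ before n + 2 * g n := by
      unfold g
      exact_mod_cast before_succ_le n
    have h2 : g (n + 1) = g n * g n := by
      unfold g
      rw [← pow_add]
      congr 1
      ring
    have h3 : 2 ≤ g n := by
      unfold g
      calc (2 : ℝ) = 2 ^ 1 := by norm_num
        _ ≤ 2 ^ 2 ^ n := pow_le_pow_right₀ (by norm_num) (Nat.one_le_two_pow)
    rw [h2]
    nlinarith

theorem before_tendsto : Tendsto (fun n => (before n : ℝ) / g n) atTop (𝓝 0) := by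
  rw [← tendsto_add_atTop_iff_nat 1]
  have h4 : Tendsto (fun n => 4 / g n) atTop (𝓝 0) := g_tendsto.const_div_atTop 4
  refine squeeze_zero (fun n => by have := g_pos (n + 1); positivity) (fun n => ?_) h4
  have h1 : (before (n + 1) : ℝ) ≤ before n + 2 * g n := by
    unfold g
    exact_mod_cast before_succ_le n
  have h2 : g (n + 1) = g n * g n := by
    unfold g
    rw [← pow_add]
    congr 1
    ring
  have h3 := before_le n
  have hg := g_pos n
  rw [h2, div_le_div_iff₀ (by positivity) hg]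
  nlinarith

/-- second hypothesis of [L] -/
theorem sum_small_le {s : Set (CC ⊕ CC)} (h : ccIdeal.sum.small s) :
    Tendsto (fun n => ({x ∈ s | blk x ≤ n}.ncard : ℝ) / g n) atTop (𝓝 0) := by
  have h1 := ((sum_small_iff s).1 h).add before_tendsto
  rw [add_zero] at h1
  refine squeeze_zero (fun n => by have := g_pos n; positivity) (fun n => ?_) h1
  rw [← add_div]
  have hsub : {x ∈ s | blk x ≤ n} ⊆ {x ∈ s | blk x = n} ∪ {x | blk x < n} := by
    rintro x ⟨hx, hb⟩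
    rcases hb.lt_or_eq with h | h
    · exact Or.inr h
    · exact Or.inl ⟨hx, h⟩
  have h2 : ({x ∈ s | blk x ≤ n}.ncard : ℝ) ≤ ({x ∈ s | blk x = n}.ncard : ℝ) + before n := by
    exact_mod_cast (Set.ncard_le_ncard hsub ((block_finite s n).union (before_finite n))).trans
      (Set.ncard_union_le _ _)
  exact div_le_div_of_nonneg_right h2 (g_pos n).le

end Crest.Agent.R053.Split
end

-- ▼ part R053/Local

/-!
# R53 block [L]: the local rule (section 1 of helper901's proof)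
-/

set_option autoImplicit false

namespace Crest.Agent.R053.Local

open Set Filter Topology

variable {α : Type}

/-- number of elements of `X` in blocks `≤ n` -/
noncomputable def cnt (blk : α → ℕ) (X : Set α) (n : ℕ) : ℕ := {x ∈ X | blk x ≤ n}.ncard

/-- excess of `X` over `N` up to block `n` -/
noncomputable def ex (blk : α → ℕ) (N X : Set α) (n : ℕ) : ℝ :=
  (cnt blk X n : ℝ) - (cnt blk N n : ℝ)

/-- every relative excess after `m` is dominated by a later relative deficit -/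
def INDm (blk : α → ℕ) (g : ℕ → ℝ) (N : Set α) (m : ℕ) (X : Set α) : Prop :=
  ∀ n ≥ m, 0 < ex blk N X n → ∃ n' > n, ex blk N X n * g n' ≤ - ex blk N X n' * g n

def IND (blk : α → ℕ) (g : ℕ → ℝ) (N : Set α) (X : Set α) : Prop :=
  ∃ m, INDm blk g N m X

/-- the local bases -/
def LB (S : SIdeal α) (blk : α → ℕ) (g : ℕ → ℝ) (N : Set α) : Set (Set α) :=
  {B | (S.le B N ∧ S.le N B) ∧ IND blk g N B ∧ ∀ e ∉ B, ¬ IND blk g N (insert e B)}

section basics

variable {blk : α → ℕ} (hfin : ∀ n, {x | blk x = n}.Finite)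

include hfin

theorem fin_le (X : Set α) (n : ℕ) : {x ∈ X | blk x ≤ n}.Finite := by
  have h : (⋃ i ∈ Set.Iic n, {x | blk x = i}).Finite :=
    (Set.finite_Iic n).biUnion (fun i _ => hfin i)
  refine h.subset ?_
  intro x hx
  simp only [mem_iUnion, mem_ofPred_eq, mem_Iic]
  exact ⟨blk x, hx.2, rfl⟩

theorem cnt_mono {X Y : Set α} (h : X ⊆ Y) (n : ℕ) : cnt blk X n ≤ cnt blk Y n :=
  ncard_le_ncard (fun _ hx => ⟨h hx.1, hx.2⟩) (fin_le hfin Y n)

theorem ex_mono (N : Set α) {X Y : Set α} (h : X ⊆ Y) (n : ℕ) : ex blk N X n ≤ ex blk N Y n := by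
  unfold ex
  have := cnt_mono hfin h n
  have : (cnt blk X n : ℝ) ≤ cnt blk Y n := by exact_mod_cast this
  linarith

theorem cnt_union {X Y : Set α} (h : Disjoint X Y) (n : ℕ) :
    cnt blk (X ∪ Y) n = cnt blk X n + cnt blk Y n := by
  unfold cnt
  rw [← ncard_union_eq ?_ (fin_le hfin X n) (fin_le hfin Y n)]
  · congr 1
    ext x; constructor
    · rintro ⟨h1 | h1, h2⟩
      · exact Or.inl ⟨h1, h2⟩
      · exact Or.inr ⟨h1, h2⟩
    · rintro (⟨h1, h2⟩ | ⟨h1, h2⟩)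
      · exact ⟨Or.inl h1, h2⟩
      · exact ⟨Or.inr h1, h2⟩
  · exact h.mono (fun x hx => hx.1) (fun x hx => hx.1)

theorem ex_union (N : Set α) {X Y : Set α} (h : Disjoint X Y) (n : ℕ) :
    ex blk N (X ∪ Y) n = ex blk N X n + cnt blk Y n := by
  unfold ex
  rw [cnt_union hfin h n]; push_cast; ring

theorem ex_diff (N : Set α) {X Y : Set α} (h : Y ⊆ X) (n : ℕ) :
    ex blk N (X \ Y) n = ex blk N X n - cnt blk Y n := by
  have h1 : (X \ Y) ∪ Y = X := sdiff_union_of_subset h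
  have h2 := ex_union hfin N (X := X \ Y) (Y := Y) disjoint_sdiff_left n
  rw [h1] at h2
  linarith

omit hfin in
theorem cnt_singleton_of_le {e : α} {n : ℕ} (h : blk e ≤ n) : cnt blk {e} n = 1 := by
  unfold cnt
  have : {x ∈ ({e} : Set α) | blk x ≤ n} = {e} := by
    ext x; constructor
    · rintro ⟨h1, _⟩; exact h1
    · intro hx; rw [mem_singleton_iff] at hx; subst hx; exact ⟨rfl, h⟩
  rw [this, ncard_singleton]

omit hfin in
theorem cnt_singleton_of_lt {e : α} {n : ℕ} (h : n < blk e) : cnt blk {e} n = 0 := by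
  unfold cnt
  have : {x ∈ ({e} : Set α) | blk x ≤ n} = ∅ := by
    ext x; constructor
    · rintro ⟨h1, h2⟩; rw [mem_singleton_iff] at h1; subst h1; omega
    · intro hx; exact hx.elim
  rw [this, ncard_empty]

theorem ex_insert_of_le (N : Set α) {X : Set α} {e : α} (he : e ∉ X) {n : ℕ} (h : blk e ≤ n) :
    ex blk N (insert e X) n = ex blk N X n + 1 := by
  rw [insert_eq, union_comm, ex_union hfin N (disjoint_singleton_right.2 he),
    cnt_singleton_of_le h]; norm_num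

theorem ex_insert_of_lt (N : Set α) {X : Set α} {e : α} (he : e ∉ X) {n : ℕ} (h : n < blk e) :
    ex blk N (insert e X) n = ex blk N X n := by
  rw [insert_eq, union_comm, ex_union hfin N (disjoint_singleton_right.2 he),
    cnt_singleton_of_lt h]; norm_num

theorem ex_swap (N : Set α) {X : Set α} {a b : α} (ha : a ∈ X) (hb : b ∉ X) {n : ℕ}
    (han : blk a ≤ n) (hbn : blk b ≤ n) :
    ex blk N (insert b (X \ {a})) n = ex blk N X n := by
  rw [ex_insert_of_le hfin N (fun h => hb h.1) hbn,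
    ex_diff hfin N (singleton_subset_iff.2 ha), cnt_singleton_of_le han]
  norm_num

variable {g : ℕ → ℝ} (hg : ∀ n, 0 < g n)

include hg

theorem INDm_anti {N X Y : Set α} {m : ℕ} (h : X ⊆ Y) (hY : INDm blk g N m Y) :
    INDm blk g N m X := by
  intro n hn hpos
  have h1 := ex_mono hfin N h n
  obtain ⟨n', hn', h2⟩ := hY n hn (lt_of_lt_of_le hpos h1)
  refine ⟨n', hn', ?_⟩
  have h3 := ex_mono hfin N h n'
  calc ex blk N X n * g n' ≤ ex blk N Y n * g n' :=
        mul_le_mul_of_nonneg_right h1 (hg n').le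
    _ ≤ - ex blk N Y n' * g n := h2
    _ ≤ - ex blk N X n' * g n := mul_le_mul_of_nonneg_right (by linarith) (hg n).le

theorem IND_anti {N X Y : Set α} (h : X ⊆ Y) (hY : IND blk g N Y) : IND blk g N X :=
  hY.imp fun _ hm => INDm_anti hfin hg h hm

omit hfin hg in
theorem INDm_mono {N X : Set α} {m m' : ℕ} (h : m ≤ m') (hX : INDm blk g N m X) :
    INDm blk g N m' X := fun _ hn => hX _ (h.trans hn)

omit hfin hg in
theorem IND_congr {N X Y : Set α} {k : ℕ} (h : ∀ n ≥ k, ex blk N X n = ex blk N Y n)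
    (hX : IND blk g N X) : IND blk g N Y := by
  obtain ⟨m, hm⟩ := hX
  refine ⟨max m k, fun n hn hpos => ?_⟩
  have h1 := h n ((le_max_right _ _).trans hn)
  rw [← h1] at hpos
  obtain ⟨n', hn', h2⟩ := hm n ((le_max_left _ _).trans hn) hpos
  refine ⟨n', hn', ?_⟩
  rw [← h1, ← h n' (by have := le_max_right m k; omega)]
  exact h2

omit hg in
theorem IND_swap {N X : Set α} {a b : α} (ha : a ∈ X) (hb : b ∉ X)
    (hX : IND blk g N X) : IND blk g N (insert b (X \ {a})) :=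
  IND_congr (k := max (blk a) (blk b)) (fun n hn => (ex_swap hfin N ha hb
    ((le_max_left _ _).trans hn) ((le_max_right _ _).trans hn)).symm) hX

omit hg in
/-- if one insertion leaves IND then all do -/
theorem not_IND_insert {N X : Set α} {a b : α} (ha : a ∉ X) (hb : b ∉ X)
    (h : ¬ IND blk g N (insert a X)) : ¬ IND blk g N (insert b X) := by
  intro hX
  by_cases hab : a = b
  · subst hab; exact h hX
  · have h1 := IND_swap hfin (mem_insert b X) (b := a)
      (by simp [hab, ha]) hX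
    apply h
    have : insert b X \ {b} = X := by
      rw [insert_sdiff_of_mem _ (mem_singleton b)]
      exact sdiff_singleton_eq_self hb
    rwa [this] at h1

end basics

section F1

variable {blk : α → ℕ} (hfin : ∀ n, {x | blk x = n}.Finite) {g : ℕ → ℝ} (hg : ∀ n, 0 < g n)

include hfin hg

/-- `INDm` is closed under unions of chains above a set whose excess is `o(g)`. -/
theorem INDm_sUnion {N : Set α} {m : ℕ} {J₀ : Set α} {c : Set (Set α)}
    (h0 : Tendsto (fun n => ex blk N J₀ n / g n) atTop (𝓝 0)) (hJ₀ : J₀ ∈ c)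
    (hc : IsChain (· ⊆ ·) c) (hm : ∀ J ∈ c, INDm blk g N m J) :
    INDm blk g N m (⋃₀ c) := by
  intro n hn hpos
  have hgn := hg n
  have hev : ∀ᶠ k in atTop, - (ex blk N (⋃₀ c) n / g n) < ex blk N J₀ k / g k :=
    h0.eventually (lt_mem_nhds (by
      have : 0 < ex blk N (⋃₀ c) n / g n := div_pos hpos hgn
      linarith))
  obtain ⟨K, hK⟩ := eventually_atTop.1 hev
  set K' := max K n with hK'
  have hfinU : ({x ∈ ⋃₀ c | blk x ≤ K'}).Finite := fin_le hfin _ _
  obtain ⟨J₁, hJ₁c, hJ₁⟩ := hc.directedOn.exists_mem_subset_of_finite_of_subset_sUnion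
    ⟨J₀, hJ₀⟩ hfinU (fun x hx => hx.1)
  obtain ⟨J, hJc, h0J, h1J⟩ := hc.directedOn J₀ hJ₀ J₁ hJ₁c
  have hJU : J ⊆ ⋃₀ c := subset_sUnion_of_mem hJc
  have hexeq : ∀ k ≤ K', ex blk N J k = ex blk N (⋃₀ c) k := by
    intro k hk
    unfold ex
    congr 2
    unfold cnt
    congr 1
    ext x; constructor
    · rintro ⟨h1, h2⟩; exact ⟨hJU h1, h2⟩
    · rintro ⟨h1, h2⟩; exact ⟨h1J (hJ₁ ⟨h1, h2.trans hk⟩), h2⟩
  have hn' : n ≤ K' := le_max_right _ _
  have hpos' : 0 < ex blk N J n := by rw [hexeq n hn']; exact hpos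
  obtain ⟨n', hn'n, h2⟩ := hm J hJc n hn hpos'
  rw [hexeq n hn'] at h2
  have hlt : n' < K := by
    by_contra hcon
    push Not at hcon
    have h3 := hK n' hcon
    have h4 : ex blk N J₀ n' ≤ ex blk N J n' := ex_mono hfin N h0J n'
    have hgn' := hg n'
    rw [neg_lt, ← neg_div, div_lt_div_iff₀ hgn' hgn] at h3
    have h5 : - ex blk N J n' * g n ≤ - ex blk N J₀ n' * g n :=
      mul_le_mul_of_nonneg_right (by linarith) hgn.le
    linarith
  refine ⟨n', hn'n, ?_⟩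
  rw [← hexeq n' (hlt.le.trans (le_max_left _ _))]
  exact h2

omit hfin hg in
/-- finite case of F1 -/
theorem fin_case {N : Set α} (X : Set α) (k : ℕ) : ∀ J : Set α, J ⊆ X → (X \ J).Finite →
    (X \ J).ncard = k → IND blk g N J → ¬ IND blk g N X →
    ∃ J', J ⊆ J' ∧ J' ⊆ X ∧ IND blk g N J' ∧ ∃ e ∈ X \ J', ¬ IND blk g N (insert e J') := by
  induction k with
  | zero =>
    intro J hJX hf hc hJ hX
    exfalso
    rw [ncard_eq_zero hf, sdiff_eq_empty] at hc
    exact hX (by rwa [subset_antisymm hc hJX])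
  | succ k ih =>
    intro J hJX hf hc hJ hX
    have hne : (X \ J).Nonempty := by
      rw [← ncard_pos hf]; omega
    obtain ⟨e, he⟩ := hne
    by_cases h : IND blk g N (insert e J)
    · have h1 : X \ insert e J = (X \ J) \ {e} := by
        ext x; simp only [Set.mem_sdiff, mem_insert_iff, mem_singleton_iff, not_or]; tauto
      have h2 : (X \ insert e J).Finite := by rw [h1]; exact hf.sdiff
      have h3 : (X \ insert e J).ncard = k := by
        rw [h1, ncard_sdiff_singleton_of_mem he, hc]; rfl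
      obtain ⟨J', h4, h5, h6, h7⟩ := ih (insert e J) (insert_subset he.1 hJX) h2 h3 h hX
      exact ⟨J', (subset_insert _ _).trans h4, h5, h6, h7⟩
    · exact ⟨J, Subset.rfl, hJX, hJ, e, he, h⟩

theorem F1 {N I X : Set α} (hIX : I ⊆ X)
    (h0 : Tendsto (fun n => ex blk N I n / g n) atTop (𝓝 0))
    (hI : IND blk g N I) (hX : ¬ IND blk g N X) :
    ∃ J, I ⊆ J ∧ J ⊆ X ∧ IND blk g N J ∧ ∀ e ∉ J, ¬ IND blk g N (insert e J) := by
  obtain ⟨m₀, hm₀⟩ := hI
  obtain ⟨J, hIJ, hJmax⟩ := zorn_subset_nonempty {J | I ⊆ J ∧ J ⊆ X ∧ INDm blk g N m₀ J} (by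
    intro c hc hchain hne
    obtain ⟨J₀, hJ₀⟩ := hne
    have h1 := hc hJ₀
    -- add `I` to the chain
    refine ⟨⋃₀ (insert I c), ⟨subset_sUnion_of_mem (mem_insert _ _), ?_, ?_⟩, ?_⟩
    · apply sUnion_subset
      rintro J (rfl | hJ)
      · exact hIX
      · exact (hc hJ).2.1
    · apply INDm_sUnion hfin hg h0 (mem_insert _ _)
      · exact hchain.insert (fun J hJ _ => Or.inl (hc hJ).1)
      · rintro J (rfl | hJ)
        · exact hm₀
        · exact (hc hJ).2.2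
    · intro J hJ
      exact subset_sUnion_of_mem (mem_insert_of_mem _ hJ)) I ⟨Subset.rfl, hIX, hm₀⟩
  obtain ⟨hJ1, hJX, hJm⟩ := hJmax.prop
  -- it suffices to find J' with one bad insertion
  suffices h : ∃ J', J ⊆ J' ∧ J' ⊆ X ∧ IND blk g N J' ∧
      ∃ e ∈ X \ J', ¬ IND blk g N (insert e J') by
    obtain ⟨J', h1, h2, h3, e, he, h4⟩ := h
    exact ⟨J', hJ1.trans h1, h2, h3, fun e' he' => not_IND_insert hfin he.2 he' h4⟩
  by_cases hf : (X \ J).Finite
  · exact fin_case X _ J hJX hf rfl ⟨m₀, hJm⟩ hX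
  · have hne : (X \ J).Nonempty := by
      by_contra h
      rw [not_nonempty_iff_eq_empty] at h
      exact hf (by rw [h]; exact finite_empty)
    obtain ⟨e, he⟩ := hne
    refine ⟨J, Subset.rfl, hJX, ⟨m₀, hJm⟩, e, he, ?_⟩
    rintro ⟨m₁', hm₁'⟩
    -- enlarge m₁
    set m₁ := max m₁' (max m₀ (blk e + 1)) with hm₁def
    have hm₁ : INDm blk g N m₁ (insert e J) := INDm_mono (le_max_left _ _) hm₁'
    have hm01 : m₀ ≤ m₁ := (le_max_left _ _).trans (le_max_right _ _)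
    have hem1 : blk e < m₁ := by
      have : blk e + 1 ≤ m₁ := (le_max_right _ _).trans (le_max_right _ _)
      omega
    -- witnesses for n in [m₀, m₁)
    have hw : ∀ n, ∃ w : ℕ, m₀ ≤ n → 0 < ex blk N J n →
        n < w ∧ ex blk N J n * g w ≤ - ex blk N J w * g n := by
      intro n
      by_cases h : m₀ ≤ n ∧ 0 < ex blk N J n
      · obtain ⟨w, hw1, hw2⟩ := hJm n h.1 h.2
        exact ⟨w, fun _ _ => ⟨hw1, hw2⟩⟩
      · exact ⟨0, fun h1 h2 => absurd ⟨h1, h2⟩ h⟩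
    choose w hw using hw
    set W := m₁ + (Finset.range m₁).sup w with hW
    have hfar : ∃ e' ∈ X \ J, W < blk e' := by
      by_contra hcon
      push Not at hcon
      apply hf
      refine (fin_le hfin (X \ J) W).subset ?_
      intro x hx
      exact ⟨hx, hcon x hx⟩
    obtain ⟨e', he', hWe'⟩ := hfar
    have hnew : INDm blk g N m₀ (insert e' J) := by
      intro n hn hpos
      by_cases hnm : n < m₁
      · have hne' : n < blk e' := by omega
        rw [ex_insert_of_lt hfin N he'.2 hne'] at hpos ⊢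
        obtain ⟨h1, h2⟩ := hw n hn hpos
        refine ⟨w n, h1, ?_⟩
        have h3 : w n ≤ (Finset.range m₁).sup w :=
          Finset.le_sup (f := w) (Finset.mem_range.2 hnm)
        rw [ex_insert_of_lt hfin N he'.2 (by omega)]
        exact h2
      · push Not at hnm
        have hle : ∀ k ≥ m₁, ex blk N (insert e' J) k ≤ ex blk N (insert e J) k := by
          intro k hk
          rw [ex_insert_of_le hfin N he.2 (by omega)]
          by_cases hk' : k < blk e'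
          · rw [ex_insert_of_lt hfin N he'.2 hk']; linarith
          · rw [ex_insert_of_le hfin N he'.2 (by omega)]
        have h1 := hle n hnm
        obtain ⟨n', hn', h2⟩ := hm₁ n hnm (lt_of_lt_of_le hpos h1)
        refine ⟨n', hn', ?_⟩
        have h3 := hle n' (by omega)
        calc ex blk N (insert e' J) n * g n' ≤ ex blk N (insert e J) n * g n' :=
              mul_le_mul_of_nonneg_right h1 (hg n').le
          _ ≤ - ex blk N (insert e J) n' * g n := h2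
          _ ≤ - ex blk N (insert e' J) n' * g n :=
              mul_le_mul_of_nonneg_right (by linarith) (hg n).le
    have hmem : insert e' J ∈ {J | I ⊆ J ∧ J ⊆ X ∧ INDm blk g N m₀ J} :=
      ⟨hJ1.trans (subset_insert _ _), insert_subset he'.1 hJX, hnew⟩
    have := hJmax.le_of_ge hmem (subset_insert _ _)
    exact he'.2 (this (mem_insert _ _))

end F1

section select

variable {blk : α → ℕ} (hfin : ∀ n, {x | blk x = n}.Finite) {g : ℕ → ℝ} (hg : ∀ n, 0 < g n)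
  (hginf : Tendsto g atTop atTop) (S : SIdeal α)
  (hsmall : ∀ s, S.small s ↔
    Tendsto (fun n => ({x ∈ s | blk x = n}.ncard : ℝ) / g n) atTop (𝓝 0))

include hfin hg hginf hsmall

theorem select {P : Set α} (hP : ¬ S.small P) (ρ : ℕ → ℝ) (hρ0 : ∀ n, 0 ≤ ρ n)
    (hρ : Antitone ρ) (hρt : Tendsto ρ atTop (𝓝 0)) :
    ∃ S₀ ⊆ P, S.small S₀ ∧ ∃ n₀, ∀ n ≥ n₀, ∃ n' > n,
      ρ n * g n' ≤ ({x ∈ S₀ | blk x = n'}.ncard : ℝ) := by
  classical
  -- blocks on which `P` is dense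
  have h1 : ∃ ε > 0, ∃ᶠ n in atTop, ε ≤ ({x ∈ P | blk x = n}.ncard : ℝ) / g n := by
    by_contra hcon
    push Not at hcon
    apply hP
    rw [hsmall]
    rw [Metric.tendsto_atTop]
    intro ε hε
    have h2 := hcon ε hε
    rw [eventually_atTop] at h2
    obtain ⟨M, hM⟩ := h2
    refine ⟨M, fun n hn => ?_⟩
    have h3 := hM n hn
    rw [Real.dist_eq, sub_zero, abs_of_nonneg (div_nonneg (Nat.cast_nonneg _) (hg n).le)]
    exact h3
  obtain ⟨ε, hε, hfreq⟩ := h1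
  obtain ⟨φ, hφ, hφP⟩ := extraction_of_frequently_atTop hfreq
  have hfinb : ∀ (s : Set α) (n : ℕ), ({x ∈ s | blk x = n}).Finite := fun s n =>
    (hfin n).subset (fun x hx => hx.2)
  -- choose the pieces
  have hT : ∀ k, ∃ T ⊆ {x ∈ P | blk x = φ (k+1)}, T.ncard =
      min ⌈ρ (φ k) * g (φ (k+1))⌉₊ ({x ∈ P | blk x = φ (k+1)}).ncard := fun k =>
    exists_subset_card_eq (min_le_right _ _)
  choose T hTP hTc using hT
  have hblk : ∀ k, {x ∈ ⋃ k, T k | blk x = φ (k+1)} = T k := by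
    intro k
    ext x; constructor
    · rintro ⟨h1, h2⟩
      obtain ⟨j, hj⟩ := mem_iUnion.1 h1
      have h3 := (hTP j hj).2
      have h4 : j + 1 = k + 1 := hφ.injective (h3.symm.trans h2)
      have h5 : j = k := by omega
      rw [← h5]; exact hj
    · intro hx
      exact ⟨mem_iUnion.2 ⟨k, hx⟩, (hTP k hx).2⟩
  refine ⟨⋃ k, T k, iUnion_subset (fun k x hx => (hTP k hx).1), ?_, ?_⟩
  · -- small
    rw [hsmall, Metric.tendsto_atTop]
    intro δ hδ
    have hρφ : Tendsto (fun k => ρ (φ k)) atTop (𝓝 0) := hρt.comp hφ.tendsto_atTop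
    obtain ⟨K, hK⟩ := eventually_atTop.1 (hρφ.eventually (gt_mem_nhds (half_pos hδ)))
    obtain ⟨N₂, hN₂⟩ := eventually_atTop.1 (hginf.eventually_gt_atTop (2 / δ))
    refine ⟨max (φ (K+1)) N₂, fun n hn => ?_⟩
    have hgn := hg n
    have hn1 : φ (K+1) ≤ n := (le_max_left _ _).trans hn
    have hn2 : N₂ ≤ n := (le_max_right _ _).trans hn
    rw [Real.dist_eq, sub_zero, abs_of_nonneg (div_nonneg (Nat.cast_nonneg _) hgn.le),
      div_lt_iff₀ hgn]
    by_cases hex : ∃ k, φ (k+1) = n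
    · obtain ⟨k, rfl⟩ := hex
      have hKk : K ≤ k := by
        have := hφ.le_iff_le.1 hn1
        omega
      rw [hblk k, hTc k]
      have h2 : ((min ⌈ρ (φ k) * g (φ (k+1))⌉₊ ({x ∈ P | blk x = φ (k+1)}).ncard : ℕ) : ℝ) ≤
          (⌈ρ (φ k) * g (φ (k+1))⌉₊ : ℝ) := by exact_mod_cast min_le_left _ _
      have h3 : (⌈ρ (φ k) * g (φ (k+1))⌉₊ : ℝ) < ρ (φ k) * g (φ (k+1)) + 1 :=
        Nat.ceil_lt_add_one (mul_nonneg (hρ0 _) hgn.le)
      have h4 := hK k hKk
      have h5 := hN₂ _ hn2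
      rw [div_lt_iff₀ hδ] at h5
      nlinarith
    · have : {x ∈ ⋃ k, T k | blk x = n} = ∅ := by
        rw [eq_empty_iff_forall_notMem]
        rintro x ⟨h1, h2⟩
        obtain ⟨j, hj⟩ := mem_iUnion.1 h1
        exact hex ⟨j, (hTP j hj).2.symm.trans h2⟩
      rw [this, ncard_empty]
      simp only [Nat.cast_zero]
      positivity
  · -- eventually the ceiling is at most the number of elements of P
    have hρφ : Tendsto (fun k => ρ (φ k)) atTop (𝓝 0) := hρt.comp hφ.tendsto_atTop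
    obtain ⟨K, hK⟩ := eventually_atTop.1 (hρφ.eventually (gt_mem_nhds (half_pos hε)))
    have hgφ : Tendsto (fun k => g (φ k)) atTop atTop := hginf.comp hφ.tendsto_atTop
    obtain ⟨K₂, hK₂⟩ := eventually_atTop.1 (hgφ.eventually_gt_atTop (2 / ε))
    refine ⟨φ (max K K₂), fun n hn => ?_⟩
    -- the index `k` with `φ k ≤ n < φ (k+1)`
    have hex : ∃ k, n < φ k := ⟨n + 1, lt_of_lt_of_le (Nat.lt_succ_self n) (hφ.id_le (n+1))⟩
    set j := Nat.find hex with hj
    have hj1 : n < φ j := Nat.find_spec hex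
    have hj2 : ∀ i < j, φ i ≤ n := fun i hi => not_lt.1 (Nat.find_min hex hi)
    have hj0 : max K K₂ < j := hφ.lt_iff_lt.1 (lt_of_le_of_lt hn hj1)
    obtain ⟨k, hk⟩ : ∃ k, j = k + 1 := ⟨j - 1, by omega⟩
    have hkn : φ k ≤ n := hj2 k (by omega)
    have hkK : max K K₂ ≤ k := by omega
    refine ⟨φ (k+1), by rw [← hk]; exact hj1, ?_⟩
    rw [hblk k, hTc k]
    have hgn := hg (φ (k+1))
    have h2 := hφP (k+1)
    rw [le_div_iff₀ hgn] at h2
    have h3 : (⌈ρ (φ k) * g (φ (k+1))⌉₊ : ℝ) < ρ (φ k) * g (φ (k+1)) + 1 :=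
      Nat.ceil_lt_add_one (mul_nonneg (hρ0 _) hgn.le)
    have h4 := hK k ((le_max_left _ _).trans hkK)
    have h5 := hK₂ (k+1) (((le_max_right _ _).trans hkK).trans (Nat.le_succ k))
    rw [div_lt_iff₀ hε] at h5
    have h6 : (⌈ρ (φ k) * g (φ (k+1))⌉₊ : ℝ) ≤ ({x ∈ P | blk x = φ (k+1)}.ncard : ℝ) := by
      nlinarith
    have h7 : ⌈ρ (φ k) * g (φ (k+1))⌉₊ ≤ {x ∈ P | blk x = φ (k+1)}.ncard := by
      exact_mod_cast h6
    rw [min_eq_left h7]
    calc ρ n * g (φ (k+1)) ≤ ρ (φ k) * g (φ (k+1)) :=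
          mul_le_mul_of_nonneg_right (hρ hkn) hgn.le
      _ ≤ _ := Nat.le_ceil _

end select

/-- antitone majorant of a null sequence -/
theorem exists_majorant {u : ℕ → ℝ} (hu : Tendsto u atTop (𝓝 0)) :
    ∃ ρ : ℕ → ℝ, (∀ n, 0 ≤ ρ n) ∧ Antitone ρ ∧ Tendsto ρ atTop (𝓝 0) ∧
      ∀ n, ∀ i ≥ n, |u i| ≤ ρ n := by
  have hu' : Tendsto (fun i => |u i|) atTop (𝓝 0) := by simpa using hu.abs
  have hbdd : BddAbove (range fun i => |u i|) := hu'.bddAbove_range
  have hbdd' : ∀ n, BddAbove (range fun i => |u (n + i)|) := fun n =>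
    hbdd.mono (by rintro _ ⟨i, rfl⟩; exact ⟨n + i, rfl⟩)
  have hle : ∀ n, ∀ i ≥ n, |u i| ≤ ⨆ i, |u (n + i)| := by
    intro n i hi
    have := le_ciSup (hbdd' n) (i - n)
    simpa [Nat.add_sub_cancel' hi] using this
  refine ⟨fun n => ⨆ i, |u (n + i)|, fun n => (abs_nonneg _).trans (hle n n le_rfl), ?_, ?_, hle⟩
  · intro m n hmn
    exact ciSup_le fun i => hle m (n + i) (by omega)
  · rw [Metric.tendsto_atTop]
    intro ε hε
    obtain ⟨K, hK⟩ := eventually_atTop.1 (hu'.eventually (gt_mem_nhds (half_pos hε)))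
    refine ⟨K, fun n hn => ?_⟩
    have h1 : (⨆ i, |u (n + i)|) ≤ ε / 2 := ciSup_le fun i => (hK (n + i) (by omega)).le
    have h0 : 0 ≤ ⨆ i, |u (n + i)| := (abs_nonneg _).trans (hle n n le_rfl)
    rw [Real.dist_eq, sub_zero, abs_of_nonneg h0]
    linarith

section F23

variable {blk : α → ℕ} (hfin : ∀ n, {x | blk x = n}.Finite) {g : ℕ → ℝ} (hg : ∀ n, 0 < g n)
  (hginf : Tendsto g atTop atTop) (S : SIdeal α)
  (hsmall : ∀ s, S.small s ↔
    Tendsto (fun n => ({x ∈ s | blk x = n}.ncard : ℝ) / g n) atTop (𝓝 0))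
  (hcum : ∀ s, S.small s →
    Tendsto (fun n => ({x ∈ s | blk x ≤ n}.ncard : ℝ) / g n) atTop (𝓝 0))

include hfin hcum in
/-- the excess of a set near `N` is `o(g)`. -/
theorem ex_tendsto {N X : Set α} (h1 : S.le X N) (h2 : S.le N X) :
    Tendsto (fun n => ex blk N X n / g n) atTop (𝓝 0) := by
  have e1 := hcum _ h1
  have e2 := hcum _ h2
  have e3 := e1.sub e2
  rw [sub_zero] at e3
  refine e3.congr (fun n => ?_)
  have hX := cnt_union hfin (X := X ∩ N) (Y := X \ N)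
    (disjoint_sdiff_right.mono_left inter_subset_right) n
  have hN := cnt_union hfin (X := N ∩ X) (Y := N \ X)
    (disjoint_sdiff_right.mono_left inter_subset_right) n
  rw [inter_union_sdiff] at hX hN
  rw [inter_comm] at hN
  unfold ex
  rw [hX, hN]
  unfold cnt
  push_cast
  rw [← sub_div]
  congr 1
  ring

include hfin hg hginf hsmall hcum

theorem F2 {N X P : Set α} (h1 : S.le X N) (h2 : S.le N X) (hPX : P ⊆ X) (hP : ¬ S.small P) :
    ∃ S₀ ⊆ P, S.small S₀ ∧ IND blk g N (X \ S₀) := by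
  obtain ⟨ρ, hρ0, hρa, hρt, hρ⟩ := exists_majorant (ex_tendsto hfin S hcum h1 h2)
  obtain ⟨S₀, hS₀P, hS₀, n₀, hn₀⟩ := select hfin hg hginf S hsmall hP (fun n => 2 * ρ n)
    (fun n => by have := hρ0 n; positivity)
    (fun m n hmn => by have := hρa hmn; simp only; linarith)
    (by simpa using hρt.const_mul 2)
  refine ⟨S₀, hS₀P, hS₀, n₀, fun n hn hpos => ?_⟩
  obtain ⟨n', hn', h3⟩ := hn₀ n hn
  refine ⟨n', hn', ?_⟩
  have hgn := hg n
  have hgn' := hg n'
  have h4 := hρ n n le_rfl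
  have h5 := hρ n n' hn'.le
  rw [abs_div, abs_of_pos hgn, div_le_iff₀ hgn] at h4
  rw [abs_div, abs_of_pos hgn', div_le_iff₀ hgn'] at h5
  rw [ex_diff hfin N (hS₀P.trans hPX), ex_diff hfin N (hS₀P.trans hPX)]
  have h6 : ({x ∈ S₀ | blk x = n'}.ncard : ℝ) ≤ cnt blk S₀ n' := by
    have : {x ∈ S₀ | blk x = n'}.ncard ≤ cnt blk S₀ n' :=
      ncard_le_ncard (fun x hx => ⟨hx.1, hx.2.le⟩) (fin_le hfin _ _)
    exact_mod_cast this
  have h7 : (0 : ℝ) ≤ cnt blk S₀ n := Nat.cast_nonneg _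
  have h8 : ex blk N X n ≤ ρ n * g n := (le_abs_self _).trans h4
  have h9 : ex blk N X n' ≤ ρ n * g n' := (le_abs_self _).trans h5
  have h10 : (ex blk N X n - cnt blk S₀ n) * g n' ≤ ρ n * g n * g n' :=
    mul_le_mul_of_nonneg_right (by linarith) hgn'.le
  have h11 : ρ n * g n' * g n ≤ -(ex blk N X n' - cnt blk S₀ n') * g n :=
    mul_le_mul_of_nonneg_right (by linarith) hgn.le
  linarith

theorem F3 {N X Q : Set α} (h1 : S.le X N) (h2 : S.le N X) (hQX : Disjoint X Q)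
    (hQ : ¬ S.small Q) :
    ∃ S₀ ⊆ Q, S.small S₀ ∧ ¬ IND blk g N (X ∪ S₀) := by
  obtain ⟨ρ, hρ0, hρa, hρt, hρ⟩ := exists_majorant (ex_tendsto hfin S hcum h1 h2)
  obtain ⟨S₀, hS₀Q, hS₀, n₀, hn₀⟩ := select hfin hg hginf S hsmall hQ
    (fun n => 2 * ρ n + 1 / ((n : ℝ) + 1))
    (fun n => by have := hρ0 n; positivity)
    (fun m n hmn => by
      have h3 := hρa hmn
      have h4 : 1 / ((n : ℝ) + 1) ≤ 1 / ((m : ℝ) + 1) := by
        apply one_div_le_one_div_of_le (by positivity)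
        have : (m : ℝ) ≤ n := by exact_mod_cast hmn
        linarith
      simp only; linarith)
    (by simpa using (hρt.const_mul 2).add tendsto_one_div_add_atTop_nhds_zero_nat)
  refine ⟨S₀, hS₀Q, hS₀, ?_⟩
  rintro ⟨m, hm⟩
  have hdis : Disjoint X S₀ := hQX.mono_right hS₀Q
  obtain ⟨n', hn', h3⟩ := hn₀ (max m n₀) (le_max_right _ _)
  set n := max m n₀ with hn
  have hgn' := hg n'
  have h5 := hρ n n' hn'.le
  rw [abs_div, abs_of_pos hgn', div_le_iff₀ hgn'] at h5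
  have h6 : ({x ∈ S₀ | blk x = n'}.ncard : ℝ) ≤ cnt blk S₀ n' := by
    have : {x ∈ S₀ | blk x = n'}.ncard ≤ cnt blk S₀ n' :=
      ncard_le_ncard (fun x hx => ⟨hx.1, hx.2.le⟩) (fin_le hfin _ _)
    exact_mod_cast this
  have h7 : 0 < (1 / ((n : ℝ) + 1)) * g n' := by positivity
  have h8 : ρ n * g n' < ex blk N (X ∪ S₀) n' := by
    rw [ex_union hfin N hdis]
    have := neg_abs_le (ex blk N X n')
    nlinarith
  have h9 : 0 < ex blk N (X ∪ S₀) n' := lt_of_le_of_lt (mul_nonneg (hρ0 n) hgn'.le) h8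
  obtain ⟨k, hk, h10⟩ := hm n' (by have := le_max_left m n₀; omega) h9
  have hgk := hg k
  have h11 := hρ n k (by omega)
  rw [abs_div, abs_of_pos hgk, div_le_iff₀ hgk] at h11
  have h12 : - ex blk N (X ∪ S₀) k ≤ ρ n * g k := by
    rw [ex_union hfin N hdis]
    have := neg_abs_le (ex blk N X k)
    have h13 : (0 : ℝ) ≤ cnt blk S₀ k := Nat.cast_nonneg _
    linarith
  have h14 : - ex blk N (X ∪ S₀) k * g n' ≤ ρ n * g k * g n' :=
    mul_le_mul_of_nonneg_right h12 hgn'.le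
  have h15 : ρ n * g n' * g k < ex blk N (X ∪ S₀) n' * g k :=
    mul_lt_mul_of_pos_right h8 hgk
  linarith

/-- Block [L]: existence of local bases in every class. -/
theorem exists_localBases (N : Set α) (hNc : ¬ S.small Nᶜ) :
    LocalBases S N (LB S blk g N) where
  near B hB := hB.1
  swap B hB a ha b hb := by
    obtain ⟨⟨h1, h2⟩, h3, h4⟩ := hB
    refine ⟨⟨?_, ?_⟩, IND_swap hfin ha hb h3, ?_⟩
    · refine S.mono (t := (B \ N) ∪ {b}) ?_ (S.union h1 (S.singleton b))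
      rintro x ⟨hx1 | hx1, hx2⟩
      · exact Or.inr hx1
      · exact Or.inl ⟨hx1.1, hx2⟩
    · refine S.mono (t := (N \ B) ∪ {a}) ?_ (S.union h2 (S.singleton a))
      rintro x ⟨hx1, hx2⟩
      by_cases hxa : x = a
      · exact Or.inr hxa
      · refine Or.inl ⟨hx1, fun hxB => hx2 (Or.inr ⟨hxB, hxa⟩)⟩
    · intro e he hI
      have hab : a ≠ b := fun h => hb (h ▸ ha)
      by_cases hea : e = a
      · subst hea
        apply h4 b hb
        have : insert e (insert b (B \ {e})) = insert b B := by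
          rw [Set.insert_comm, insert_sdiff_singleton, insert_eq_of_mem ha]
        rwa [this] at hI
      · have heB : e ∉ B := fun h => he (Or.inr ⟨h, hea⟩)
        have heb : e ≠ b := fun h => he (Or.inl h)
        apply h4 e heB
        -- `insert e B` is a swap of `insert e (insert b (B \ {a}))`
        have h5 := IND_swap hfin (blk := blk) (g := g) (N := N)
          (X := insert e (insert b (B \ {a}))) (a := b) (b := a)
          (by simp) (by simp [hab, Ne.symm hea]) hI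
        have : insert a (insert e (insert b (B \ {a})) \ {b}) = insert e B := by
          ext x
          simp only [mem_insert_iff, Set.mem_sdiff, mem_singleton_iff]
          by_cases hxa : x = a
          · subst hxa; simp [ha]
          · by_cases hxb : x = b
            · subst hxb; simp [hxa, hb, Ne.symm heb]
            · simp [hxa, hxb]
        rwa [this] at h5
  anti B hB B' hB' h := by
    by_contra hne
    obtain ⟨e, he, heB⟩ := exists_of_ssubset (ssubset_iff_subset_ne.2 ⟨h, hne⟩)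
    exact hB.2.2 e heB (IND_anti hfin hg (insert_subset he h) hB'.2.1)
  mid I X hIX hIN hNX hI := by
    -- Step 1: `A` with `I ⊆ A ⊆ X`, near `N`, IND
    have step1 : ∃ A, I ⊆ A ∧ A ⊆ X ∧ S.le A N ∧ S.le N A ∧ IND blk g N A := by
      by_cases hNI : S.le N I
      · obtain ⟨B, hB, hIB⟩ := hI hNI
        exact ⟨I, Subset.rfl, hIX, hIN, hNI, IND_anti hfin hg hIB hB.2.1⟩
      · set Y := (N ∩ X) ∪ I with hY
        have hYN : S.le Y N := S.mono (t := I \ N) (by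
          rintro x ⟨hx1 | hx1, hx2⟩
          · exact absurd hx1.1 hx2
          · exact ⟨hx1, hx2⟩) hIN
        have hNY : S.le N Y := S.mono (t := N \ X) (by
          rintro x ⟨hx1, hx2⟩
          exact ⟨hx1, fun hx => hx2 (Or.inl ⟨hx1, hx⟩)⟩) hNX
        have hP : ¬ S.small (Y \ I) := by
          intro hsm
          apply hNI
          refine S.mono (t := (Y \ I) ∪ (N \ X)) ?_ (S.union hsm hNX)
          rintro x ⟨hx1, hx2⟩
          by_cases hxX : x ∈ X
          · exact Or.inl ⟨Or.inl ⟨hx1, hxX⟩, hx2⟩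
          · exact Or.inr ⟨hx1, hxX⟩
        obtain ⟨S₀, hS₀, hS₀s, hIND⟩ := F2 hfin hg hginf S hsmall hcum hYN hNY
          sdiff_subset hP
        refine ⟨Y \ S₀, ?_, ?_, ?_, ?_, hIND⟩
        · intro x hx
          exact ⟨Or.inr hx, fun h => (hS₀ h).2 hx⟩
        · rintro x ⟨hx1 | hx1, _⟩
          · exact hx1.2
          · exact hIX hx1
        · exact S.mono (t := Y \ N) (fun x hx => ⟨hx.1.1, hx.2⟩) hYN
        · refine S.mono (t := (N \ Y) ∪ S₀) ?_ (S.union hNY hS₀s)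
          rintro x ⟨hx1, hx2⟩
          by_cases hxY : x ∈ Y
          · exact Or.inr (by by_contra h; exact hx2 ⟨hxY, h⟩)
          · exact Or.inl ⟨hx1, hxY⟩
    obtain ⟨A, hIA, hAX, hAN, hNA, hAind⟩ := step1
    -- near-ness of enlargements by small sets
    have hbig : ∀ Z S₁ : Set α, S.le Z N → S.le N Z → S.small S₁ →
        S.le (Z ∪ S₁) N ∧ S.le N (Z ∪ S₁) := by
      intro Z S₁ h1 h2 h3
      refine ⟨S.mono (t := (Z \ N) ∪ S₁) ?_ (S.union h1 h3),
        S.mono (t := N \ Z) (fun x hx => ⟨hx.1, fun h => hx.2 (Or.inl h)⟩) h2⟩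
      rintro x ⟨hx1 | hx1, hx2⟩
      · exact Or.inl ⟨hx1, hx2⟩
      · exact Or.inr hx1
    -- F1 gives members of LB
    have useF1 : ∀ A Z : Set α, A ⊆ Z → S.le A N → S.le N A → S.le Z N →
        IND blk g N A → ¬ IND blk g N Z → ∃ B ∈ LB S blk g N, A ⊆ B ∧ B ⊆ Z := by
      intro A Z hAZ h1 h2 h3 h4 h5
      obtain ⟨J, hJ1, hJ2, hJ3, hJ4⟩ := F1 hfin hg hAZ (ex_tendsto hfin S hcum h1 h2) h4 h5
      refine ⟨J, ⟨⟨S.mono (t := Z \ N) (fun x hx => ⟨hJ2 hx.1, hx.2⟩) h3,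
        S.mono (t := N \ A) (fun x hx => ⟨hx.1, fun h => hx.2 (hJ1 h)⟩) h2⟩, hJ3, hJ4⟩,
        hJ1, hJ2⟩
    by_cases hXN : S.le X N
    · by_cases hXI : IND blk g N X
      · right
        refine ⟨hXN, ?_⟩
        have hQ : ¬ S.small Xᶜ := by
          intro hsm
          apply hNc
          refine S.mono (t := Xᶜ ∪ (X \ N)) ?_ (S.union hsm hXN)
          intro x hx
          by_cases hxX : x ∈ X
          · exact Or.inr ⟨hxX, hx⟩
          · exact Or.inl hxX
        obtain ⟨S₁, hS₁, hS₁s, hnot⟩ := F3 hfin hg hginf S hsmall hcum hXN hNX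
          disjoint_compl_right hQ
        obtain ⟨h1, h2⟩ := hbig X S₁ hXN hNX hS₁s
        obtain ⟨B, hB, hXB, _⟩ := useF1 X (X ∪ S₁) subset_union_left hXN hNX h1 hXI hnot
        exact ⟨B, hB, hXB⟩
      · left
        obtain ⟨B, hB, h1, h2⟩ := useF1 A X hAX hAN hNA hXN hAind hXI
        exact ⟨B, hB, hIA.trans h1, h2⟩
    · left
      have hQ : ¬ S.small (X \ A) := by
        intro hsm
        apply hXN
        refine S.mono (t := (X \ A) ∪ (A \ N)) ?_ (S.union hsm hAN)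
        rintro x ⟨hx1, hx2⟩
        by_cases hxA : x ∈ A
        · exact Or.inr ⟨hxA, hx2⟩
        · exact Or.inl ⟨hx1, hxA⟩
      obtain ⟨S₁, hS₁, hS₁s, hnot⟩ := F3 hfin hg hginf S hsmall hcum hAN hNA
        disjoint_sdiff_right hQ
      obtain ⟨h1, h2⟩ := hbig A S₁ hAN hNA hS₁s
      obtain ⟨B, hB, hAB, hBX⟩ := useF1 A (A ∪ S₁) subset_union_left hAN hNA h1 hAind hnot
      exact ⟨B, hB, hIA.trans hAB, hBX.trans (union_subset hAX (hS₁.trans sdiff_subset))⟩

end F23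

end Crest.Agent.R053.Local
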